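import Mathlib

/-!
# Haar modulus of matrices of square determinant one

Every homomorphism from `GL_n(F)` to a commutative monoid factors through the determinant
(`F` a field with more than two elements).  Hence for a finite product `R` of locally compact
fields, a linear automorphism of `R^n` with determinant of square `1` preserves Haar measure.
-/

open MeasureTheory Matrix

namespace Vale.Agent.P011.H544

section field

variable {F : Type*} [Field F] {ι : Type*} [Fintype ι] [DecidableEq ι]

/-- Diagonal matrices. -/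
noncomputable def Dg : (ι → Fˣ) →* (Matrix ι ι F)ˣ :=
  (Units.map ((Matrix.diagonalRingHom ι F : (ι → F) →+* Matrix ι ι F) : (ι → F) →* _)).comp
    (MulEquiv.piUnits (M := fun _ : ι => F)).symm.toMonoidHom

theorem Dg_val (D : ι → Fˣ) :
    ((Dg D : (Matrix ι ι F)ˣ) : Matrix ι ι F) = diagonal (fun i => (D i : F)) := rfl

/-- The diagonal matrix with `a` at place `i` and `1` elsewhere. -/
noncomputable def dg (i : ι) : Fˣ →* (Matrix ι ι F)ˣ :=
  Dg.comp (MonoidHom.mulSingle (fun _ => Fˣ) i)

theorem dg_val (i : ι) (a : Fˣ) :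
    ((dg i a : (Matrix ι ι F)ˣ) : Matrix ι ι F) = diagonal (Pi.mulSingle i (a : F)) := by
  change diagonal (fun j => ((Pi.mulSingle i a : ι → Fˣ) j : F)) = _
  congr 1
  funext j
  by_cases h : j = i
  · subst h; simp
  · simp [h]

theorem dg_det (i : ι) (a : Fˣ) : det ((dg i a : (Matrix ι ι F)ˣ) : Matrix ι ι F) = a := by
  rw [dg_val, det_diagonal, Finset.prod_eq_single i]
  · simp
  · intro j _ hj
    simp [hj]
  · simp

/-- The transvection as a unit. -/
noncomputable def tv (i j : ι) (hij : i ≠ j) (c : F) : (Matrix ι ι F)ˣ :=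
  ⟨transvection i j c, transvection i j (-c), by
    rw [transvection_mul_transvection_same i j hij, add_neg_cancel, transvection_zero], by
    rw [transvection_mul_transvection_same i j hij, neg_add_cancel, transvection_zero]⟩

theorem tv_add (i j : ι) (hij : i ≠ j) (c d : F) : tv i j hij (c + d) = tv i j hij c * tv i j hij d := by
  ext1
  simp [tv, transvection_mul_transvection_same i j hij]

theorem dg_tv (i j : ι) (hij : i ≠ j) (a : Fˣ) (c : F) :
    dg i a * tv i j hij c = tv i j hij (a * c) * dg i a := by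
  ext1
  simp only [Units.val_mul, dg_val, tv, transvection]
  rw [mul_add, add_mul, mul_one, one_mul]
  congr 1
  ext k l
  rw [diagonal_mul, mul_diagonal, single_apply, single_apply]
  by_cases hk : i = k
  · by_cases hl : j = l
    · subst hk; subst hl
      simp [hij.symm]
    · simp [hl]
  · simp [hk]

variable {A : Type*} [CommMonoid A]

theorem map_tv (f : (Matrix ι ι F)ˣ →* A) {a : F} (ha : a ≠ 0) (ha1 : a ≠ 1)
    (i j : ι) (hij : i ≠ j) (c : F) : f (tv i j hij c) = 1 := by
  have hu : ∀ g : (Matrix ι ι F)ˣ, IsUnit (f g) := fun g => (Group.isUnit g).map f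
  have h1 : ∀ c, f (tv i j hij (a * c)) = f (tv i j hij c) := by
    intro c
    have h := congrArg f (dg_tv i j hij (Units.mk0 a ha) c)
    rw [map_mul, map_mul, mul_comm] at h
    exact ((hu _).mul_right_cancel h).symm
  have h2 : ∀ c, f (tv i j hij ((a - 1) * c)) = 1 := by
    intro c
    have h := h1 c
    have : a * c = (a - 1) * c + c := by ring
    rw [this, tv_add, map_mul] at h
    exact (hu _).mul_right_cancel (h.trans (one_mul _).symm)
  have h3 : c = (a - 1) * ((a - 1)⁻¹ * c) := by
    rw [← mul_assoc, mul_inv_cancel₀ (sub_ne_zero.2 ha1), one_mul]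
  rw [h3]
  exact h2 _

/-- conjugation of diagonal matrices by a permutation matrix -/
theorem map_dg (f : (Matrix ι ι F)ˣ →* A) (i j : ι) (a : Fˣ) : f (dg i a) = f (dg j a) := by
  classical
  set σ : Equiv.Perm ι := Equiv.swap i j with hσ
  have hσs : σ.symm = σ := by rw [hσ]; exact Equiv.symm_swap i j
  have hPP : ((σ.toPEquiv.toMatrix : Matrix ι ι F)) * (σ.toPEquiv.toMatrix : Matrix ι ι F) = 1 := by
    rw [PEquiv.toMatrix_toPEquiv_mul]
    ext k l
    simp only [submatrix_apply, id, PEquiv.toMatrix_apply, Equiv.toPEquiv_apply,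
      Option.mem_def, Option.some.injEq, one_apply]
    rw [hσ, Equiv.swap_apply_self]
  let P : (Matrix ι ι F)ˣ := ⟨σ.toPEquiv.toMatrix, σ.toPEquiv.toMatrix, hPP, hPP⟩
  have h : P * dg i a = dg j a * P := by
    ext1
    simp only [Units.val_mul, dg_val, P]
    rw [PEquiv.toMatrix_toPEquiv_mul, PEquiv.mul_toMatrix_toPEquiv, hσs]
    ext k l
    simp only [submatrix_apply, id, diagonal_apply]
    by_cases hk : σ k = l
    · have hk' : k = σ l := by rw [← hk, hσ, Equiv.swap_apply_self]
      subst hk'
      simp only [hσ, Equiv.swap_apply_self, if_true]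
      rcases eq_or_ne l i with rfl | hli
      · simp
      · rcases eq_or_ne l j with rfl | hlj
        · simp [Equiv.swap_apply_right, Pi.mulSingle_apply, eq_comm]
        · rw [Equiv.swap_apply_of_ne_of_ne hli hlj, Pi.mulSingle_eq_of_ne hli,
            Pi.mulSingle_eq_of_ne hlj]
    · have hk' : k ≠ σ l := by
        rintro rfl
        exact hk (by rw [hσ, Equiv.swap_apply_self])
      rw [if_neg hk, if_neg hk']
  have h2 := congrArg f h
  rw [map_mul, map_mul, mul_comm] at h2
  exact ((Group.isUnit P).map f).mul_right_cancel h2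

/-- **A homomorphism from `GL_n(F)` to a commutative monoid factors through `det`.** -/
theorem map_eq_det (f : (Matrix ι ι F)ˣ →* A) {a : F} (ha : a ≠ 0) (ha1 : a ≠ 1) (i0 : ι)
    (g : (Matrix ι ι F)ˣ) (d : Fˣ) (hd : det (g : Matrix ι ι F) = d) : f g = f (dg i0 d) := by
  classical
  have key : ∀ M : Matrix ι ι F, det M ≠ 0 →
      ∀ (g : (Matrix ι ι F)ˣ) (d : Fˣ), (g : Matrix ι ι F) = M → det M = d →
        f g = f (dg i0 d) := by
    intro M hM
    refine Matrix.diagonal_transvection_induction_of_det_ne_zero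
      (fun M => ∀ (g : (Matrix ι ι F)ˣ) (d : Fˣ), (g : Matrix ι ι F) = M → det M = d →
        f g = f (dg i0 d)) M hM ?_ ?_ ?_
    · intro D hD g d hg hd
      have hDi : ∀ i, D i ≠ 0 := by
        intro i hi
        exact hD (by rw [det_diagonal]; exact Finset.prod_eq_zero (Finset.mem_univ i) hi)
      have hg' : g = Dg (fun i => Units.mk0 (D i) (hDi i)) := by
        ext1
        rw [hg, Dg_val]
        rfl
      have hd' : d = ∏ i, Units.mk0 (D i) (hDi i) := by
        ext1
        rw [← hd, det_diagonal, Units.coe_prod]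
        rfl
      rw [hg', ← Finset.univ_prod_mulSingle (fun i => Units.mk0 (D i) (hDi i)), hd']
      change (f.comp Dg) _ = (f.comp (dg i0)) _
      rw [map_prod, map_prod]
      exact Finset.prod_congr rfl fun i _ => map_dg f i i0 _
    · intro t g d hg hd
      have hg' : g = tv t.i t.j t.hij t.c := by
        ext1
        rw [hg]
        rfl
      have hd' : d = 1 := by
        ext1
        rw [← hd]
        simp
      rw [hg', hd', map_one, map_one]
      exact map_tv f ha ha1 _ _ _ _
    · intro B C hB hC hPB hPC g d hg hd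
      have hBu : IsUnit B := (Matrix.isUnit_iff_isUnit_det B).2 (isUnit_iff_ne_zero.2 hB)
      have hCu : IsUnit C := (Matrix.isUnit_iff_isUnit_det C).2 (isUnit_iff_ne_zero.2 hC)
      obtain ⟨b, rfl⟩ := hBu
      obtain ⟨c, rfl⟩ := hCu
      have hg' : g = b * c := by ext1; rw [hg]; rfl
      have hd' : d = Units.mk0 _ hB * Units.mk0 _ hC := by
        ext1
        rw [← hd, det_mul]
        rfl
      rw [hg', hd', map_mul, map_mul, map_mul, hPB b (Units.mk0 _ hB) rfl rfl,
        hPC c (Units.mk0 _ hC) rfl rfl]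
  exact key g (by rw [hd]; exact d.ne_zero) g d rfl hd

/-- A homomorphism from `GL_n(F)` to a monoid without elements of order two kills the matrices
whose determinant has square one. -/
theorem map_eq_one (hA : ∀ a : A, a * a = 1 → a = 1) (f : (Matrix ι ι F)ˣ →* A) {a : F}
    (ha : a ≠ 0) (ha1 : a ≠ 1) (g : (Matrix ι ι F)ˣ)
    (hg : det (g : Matrix ι ι F) * det (g : Matrix ι ι F) = 1) : f g = 1 := by
  classical
  cases isEmpty_or_nonempty ι with
  | inl h => rw [Subsingleton.elim g 1, map_one]
  | inr h =>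
    obtain ⟨i0⟩ := h
    let d : Fˣ := ⟨det (g : Matrix ι ι F), det (g : Matrix ι ι F), hg, hg⟩
    have hdd : d * d = 1 := by ext1; exact hg
    rw [map_eq_det f ha ha1 i0 g d rfl]
    refine hA _ ?_
    rw [← map_mul, ← map_mul, hdd, map_one, map_one]

end field

section detone

open scoped NNReal Pointwise

theorem nnreal_sq_one : ∀ a : ℝ≥0, a * a = 1 → a = 1 := by
  intro a ha
  rcases (mul_self_eq_one_iff.1 (by exact_mod_cast ha : (a : ℝ) * a = 1)) with h | h
  · exact_mod_cast h
  · exact absurd a.coe_nonneg (by rw [h]; norm_num)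

/-- A commutative ring `R` such that every homomorphism from `GL_n(R)` to the nonnegative reals
kills the matrices with determinant of square one (true for finite products of fields with more
than two elements). -/
def DetOne (R : Type*) [CommRing R] : Prop :=
  ∀ (n : ℕ) (f : (Matrix (Fin n) (Fin n) R)ˣ →* ℝ≥0) (g : (Matrix (Fin n) (Fin n) R)ˣ),
    det (g : Matrix (Fin n) (Fin n) R) * det (g : Matrix (Fin n) (Fin n) R) = 1 → f g = 1

theorem DetOne.field {F : Type*} [Field F] (h : ∃ a : F, a ≠ 0 ∧ a ≠ 1) : DetOne F := by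
  obtain ⟨a, ha, ha1⟩ := h
  exact fun n f g hg => map_eq_one nnreal_sq_one f ha ha1 g hg

/-- A family of matrices as a matrix over the product ring. -/
def glue {W : Type*} {F : W → Type*} [∀ w, CommRing (F w)] {ι : Type*} [Fintype ι]
    [DecidableEq ι] : (∀ w, Matrix ι ι (F w)) →* Matrix ι ι (∀ w, F w) where
  toFun M := Matrix.of fun i j w => M w i j
  map_one' := by
    ext i j w
    by_cases h : i = j
    · subst h; simp
    · simp [h]
  map_mul' M N := by
    ext i j w
    simp [Matrix.mul_apply]

theorem DetOne.pi {W : Type*} [Finite W] {F : W → Type*} [∀ w, CommRing (F w)]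
    (hF : ∀ w, DetOne (F w)) : DetOne (∀ w, F w) := by
  classical
  intro n f g hg
  let G : (∀ w, (Matrix (Fin n) (Fin n) (F w))ˣ) →* (Matrix (Fin n) (Fin n) (∀ w, F w))ˣ :=
    (Units.map glue).comp
      (MulEquiv.piUnits (M := fun w => Matrix (Fin n) (Fin n) (F w))).symm.toMonoidHom
  let h : ∀ w, (Matrix (Fin n) (Fin n) (F w))ˣ := fun w =>
    Units.map ((Pi.evalRingHom F w).mapMatrix :
      Matrix (Fin n) (Fin n) (∀ w, F w) →+* Matrix (Fin n) (Fin n) (F w)).toMonoidHom g
  have hG : G h = g := by
    ext1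
    ext i j w
    rfl
  rw [← hG]
  have key : h ∈ (f.comp G).ker := by
    refine Subgroup.pi_mem_of_mulSingle_mem h fun w => ?_
    rw [MonoidHom.mem_ker]
    refine hF w n ((f.comp G).comp
      (MonoidHom.mulSingle (fun w => (Matrix (Fin n) (Fin n) (F w))ˣ) w)) (h w) ?_
    have h1 : det ((h w : (Matrix (Fin n) (Fin n) (F w))ˣ) : Matrix (Fin n) (Fin n) (F w)) =
        (Pi.evalRingHom F w) (det (g : Matrix (Fin n) (Fin n) (∀ w, F w))) := by
      rw [RingHom.map_det]
      rfl
    rw [h1, ← map_mul, hg, map_one]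
  exact key

/-- Two matrices as a matrix over the product ring. -/
def glue2 {R S : Type*} [CommRing R] [CommRing S] {ι : Type*} [Fintype ι]
    [DecidableEq ι] : (Matrix ι ι R × Matrix ι ι S) →* Matrix ι ι (R × S) where
  toFun M := Matrix.of fun i j => (M.1 i j, M.2 i j)
  map_one' := by
    ext i j
    · by_cases h : i = j
      · subst h; simp
      · simp [h]
    · by_cases h : i = j
      · subst h; simp
      · simp [h]
  map_mul' M N := by
    ext i j
    · simp [Matrix.mul_apply, Prod.fst_sum]
    · simp [Matrix.mul_apply, Prod.snd_sum]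

theorem DetOne.prod {R S : Type*} [CommRing R] [CommRing S] (hR : DetOne R) (hS : DetOne S) :
    DetOne (R × S) := by
  classical
  intro n f g hg
  let G : ((Matrix (Fin n) (Fin n) R)ˣ × (Matrix (Fin n) (Fin n) S)ˣ) →*
      (Matrix (Fin n) (Fin n) (R × S))ˣ :=
    (Units.map glue2).comp MulEquiv.prodUnits.symm.toMonoidHom
  let h1 : (Matrix (Fin n) (Fin n) R)ˣ :=
    Units.map ((RingHom.fst R S).mapMatrix :
      Matrix (Fin n) (Fin n) (R × S) →+* Matrix (Fin n) (Fin n) R).toMonoidHom g
  let h2 : (Matrix (Fin n) (Fin n) S)ˣ :=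
    Units.map ((RingHom.snd R S).mapMatrix :
      Matrix (Fin n) (Fin n) (R × S) →+* Matrix (Fin n) (Fin n) S).toMonoidHom g
  have hG : G (h1, h2) = g := by
    ext1
    ext i j
    · rfl
    · rfl
  have h12 : (h1, h2) = MonoidHom.inl _ _ h1 * MonoidHom.inr _ _ h2 := by
    simp
  have e1 : det (h1 : Matrix (Fin n) (Fin n) R) =
      (RingHom.fst R S) (det (g : Matrix (Fin n) (Fin n) (R × S))) := by
    rw [RingHom.map_det]
    rfl
  have e2 : det (h2 : Matrix (Fin n) (Fin n) S) =
      (RingHom.snd R S) (det (g : Matrix (Fin n) (Fin n) (R × S))) := by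
    rw [RingHom.map_det]
    rfl
  rw [← hG, h12, map_mul, map_mul]
  have k1 : f (G (MonoidHom.inl _ _ h1)) = 1 :=
    hR n ((f.comp G).comp (MonoidHom.inl _ _)) h1 (by rw [e1, ← map_mul, hg, map_one])
  have k2 : f (G (MonoidHom.inr _ _ h2)) = 1 :=
    hS n ((f.comp G).comp (MonoidHom.inr _ _)) h2 (by rw [e2, ← map_mul, hg, map_one])
  rw [k1, k2, one_mul]

/-- **Haar measure is preserved by automorphisms of square determinant one.**  `E` is a free
module of finite rank over `R`, with the product topology. -/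
theorem haar_of_det {R : Type*} [CommRing R] [TopologicalSpace R] [IsTopologicalRing R]
    (hR : DetOne R) {ι : Type*} [Finite ι]
    {E : Type*} [AddCommGroup E] [Module R E] [TopologicalSpace E]
    [IsTopologicalAddGroup E] [LocallyCompactSpace E] [MeasurableSpace E] [BorelSpace E]
    (φ : E ≃L[R] (ι → R)) (μ : Measure E) [μ.IsAddHaarMeasure] [μ.Regular]
    (T : E →ₗ[R] E)
    (hT : LinearMap.det T * LinearMap.det T = 1) (s : Set E) : μ (T ⁻¹' s) = μ s := by
  classical
  have := Fintype.ofFinite ι
  let b0 : Module.Basis ι R E := Module.Basis.ofEquivFun φ.toLinearEquiv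
  let b := b0.reindex (Fintype.equivFin ι)
  have hcont : ∀ L : E →ₗ[R] E, Continuous L := by
    intro L
    have h1 : Continuous (((φ : E →ₗ[R] (ι → R)) ∘ₗ L) ∘ₗ (φ.symm : (ι → R) →ₗ[R] E)) :=
      LinearMap.continuous_on_pi _
    have h2 : (L : E → E) =
        (φ.symm ∘ (((φ : E →ₗ[R] (ι → R)) ∘ₗ L) ∘ₗ (φ.symm : (ι → R) →ₗ[R] E))) ∘ φ := by
      funext x
      simp
    rw [h2]
    exact (φ.symm.continuous.comp h1).comp φ.continuous
  have : ContinuousConstSMul (E →ₗ[R] E)ˣ E := ⟨fun u => hcont (u : E →ₗ[R] E)⟩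
  let f : (Matrix (Fin (Fintype.card ι)) (Fin (Fintype.card ι)) R)ˣ →* ℝ≥0 :=
    (distribHaarChar E).comp
      (Units.map (LinearMap.toMatrixAlgEquiv b).symm.toAlgHom.toRingHom.toMonoidHom)
  have hM : det (LinearMap.toMatrixAlgEquiv b T) = LinearMap.det T := by
    rw [← LinearMap.det_toMatrix b]
    rfl
  have hMu : IsUnit (LinearMap.toMatrixAlgEquiv b T) := by
    rw [Matrix.isUnit_iff_isUnit_det, hM]
    exact IsUnit.of_mul_eq_one _ hT
  obtain ⟨g, hg⟩ := hMu
  have hfg : f g = 1 := hR _ f g (by rw [hg, hM, hT])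
  set u : (E →ₗ[R] E)ˣ :=
    Units.map (LinearMap.toMatrixAlgEquiv b).symm.toAlgHom.toRingHom.toMonoidHom g with hu
  have huT : (u : E →ₗ[R] E) = T := by
    rw [hu]
    change (LinearMap.toMatrixAlgEquiv b).symm
      (g : Matrix (Fin (Fintype.card ι)) (Fin (Fintype.card ι)) R) = T
    rw [hg, AlgEquiv.symm_apply_apply]
  have hs : (T ⁻¹' s) = u⁻¹ • s := by
    ext x
    rw [Set.mem_inv_smul_set_iff, Set.mem_preimage, ← huT]
    rfl
  have h1 : distribHaarChar E u = 1 := hfg
  rw [hs, ← distribHaarChar_mul, map_inv, h1]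
  simp

end detone

end Vale.Agent.P011.H544
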