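import Vale.Agent.P011.H544.Coco
import Vale.Agent.P011.H544.HaarDet

/-!
# Concrete `D_S`: a division algebra over `k`, base changed to `R = k_S`, and an order

`k` a field, `R` a topological `k`-algebra (a finite product of locally compact fields), `O` a
subring of `k` (the `S`-integers) discrete and cocompact in `R`; `A` a finite dimensional division
algebra over `k` with `k`-linear involution, `E` its base change to `R` given in coordinates.
-/

open MeasureTheory Matrix Module

namespace Vale.Agent.P011.H544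

/-- `E` is the base change to `R` of the `k`-algebra with involution `A`, in coordinates with
respect to a `k`-basis `a` of `A`. -/
structure BC (k R A E ι : Type*) [Field k] [CommRing R] [TopologicalSpace R] [Algebra k R]
    [DivisionRing A] [StarRing A] [Algebra k A] [Ring E] [StarRing E] [TopologicalSpace E]
    [Algebra R E] [Finite ι] [DecidableEq ι] where
  /-- a basis of `A` over `k` -/
  a : Basis ι k A
  /-- coordinates of `E` -/
  φ : E ≃L[R] (ι → R)
  /-- the embedding of `A` in `E` -/
  j : A →+* E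
  j_smul : ∀ (c : k) (x : A), j (c • x) = algebraMap k R c • j x
  j_star : ∀ x : A, j (star x) = star (j x)
  φ_j : ∀ i, φ (j (a i)) = Pi.single i 1
  star_smul : ∀ (r : R) (x : E), star (r • x) = r • star x

/-- `Lam` is an order over `O` in `A`: a star-stable subring, comparable with the lattice spanned
by the basis. -/
structure IsOrd {k A ι : Type*} [Field k] [DivisionRing A] [StarRing A] [Algebra k A]
    [Fintype ι] (a : Basis ι k A) (O : Subring k) (Lam : Subring A) : Prop where
  star_mem : ∀ x ∈ Lam, star x ∈ Lam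
  up : ∃ d : k, d ≠ 0 ∧ ∀ x ∈ Lam, ∀ i, d * a.repr x i ∈ O
  lo : ∃ d : k, d ≠ 0 ∧ ∀ c : ι → k, (∀ i, c i ∈ O) → ∑ i, (d * c i) • a i ∈ Lam

namespace BC

variable {k R A E ι : Type*} [Field k] [CommRing R] [TopologicalSpace R] [IsTopologicalRing R]
  [Algebra k R]
  [DivisionRing A] [StarRing A] [Algebra k A] [Ring E] [StarRing E] [TopologicalSpace E]
  [IsTopologicalRing E] [Algebra R E] [Fintype ι] [DecidableEq ι] (B : BC k R A E ι)

/-- The basis of `E`. -/
noncomputable def b : Basis ι R E := Basis.ofEquivFun B.φ.toLinearEquiv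

omit [IsTopologicalRing R] [IsTopologicalRing E] in
theorem b_apply (i : ι) : B.b i = B.j (B.a i) := by
  rw [b, Basis.coe_ofEquivFun]
  change B.φ.symm (Pi.single i 1) = _
  rw [← B.φ_j i, ContinuousLinearEquiv.symm_apply_apply]

omit [IsTopologicalRing R] [IsTopologicalRing E] in
theorem j_eq (x : A) : B.j x = ∑ i, algebraMap k R (B.a.repr x i) • B.b i := by
  conv_lhs => rw [← B.a.sum_repr x]
  rw [map_sum]
  exact Finset.sum_congr rfl fun i _ => by rw [B.j_smul, B.b_apply]

omit [IsTopologicalRing R] [IsTopologicalRing E] in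
theorem φ_eq (x : A) (i : ι) : B.φ (B.j x) i = algebraMap k R (B.a.repr x i) := by
  have h : B.φ (B.j x) i = B.b.repr (B.j x) i := rfl
  rw [h, B.j_eq, map_sum, Finsupp.finsetSum_apply]
  simp only [map_smul, Basis.repr_self, Finsupp.smul_single, smul_eq_mul, mul_one]
  rw [Finset.sum_eq_single i]
  · simp
  · intro l _ hl
    simp [hl]
  · simp

/-- Star as a linear map. -/
def starL : E →ₗ[R] E where
  toFun := star
  map_add' := star_add
  map_smul' r x := B.star_smul r x

omit [Fintype ι] [DecidableEq ι] [StarRing E] [IsTopologicalRing E] in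
theorem cont_lin [Finite ι] (φ : E ≃L[R] (ι → R)) (L : E →ₗ[R] E) : Continuous L := by
  have h1 : Continuous (((φ : E →ₗ[R] (ι → R)) ∘ₗ L) ∘ₗ (φ.symm : (ι → R) →ₗ[R] E)) :=
    LinearMap.continuous_on_pi _
  have h2 : (L : E → E) =
      (φ.symm ∘ (((φ : E →ₗ[R] (ι → R)) ∘ₗ L) ∘ₗ (φ.symm : (ι → R) →ₗ[R] E))) ∘ φ := by
    funext x
    simp
  rw [h2]
  exact (φ.symm.continuous.comp h1).comp φ.continuous

include B

omit [IsTopologicalRing E] in
theorem continuousStar : ContinuousStar E := ⟨cont_lin B.φ B.starL⟩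

omit [IsTopologicalRing R] [IsTopologicalRing E] in
theorem t2 [T2Space R] : T2Space E := B.φ.toHomeomorph.symm.t2Space

omit [IsTopologicalRing R] [IsTopologicalRing E] in
theorem locallyCompact [LocallyCompactSpace R] : LocallyCompactSpace E :=
  B.φ.toHomeomorph.isClosedEmbedding.locallyCompactSpace

omit [IsTopologicalRing R] [IsTopologicalRing E] in
theorem noncompact [NoncompactSpace R] [Nonempty ι] : NoncompactSpace E := by
  by_contra h
  have h0 : CompactSpace E := by
    by_contra h1
    exact h (not_compactSpace_iff.1 h1)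
  have h1 : CompactSpace (ι → R) := B.φ.toHomeomorph.compactSpace
  obtain ⟨i⟩ := ‹Nonempty ι›
  have h2 : CompactSpace R := by
    have : Function.Surjective (fun v : ι → R => v i) := fun r => ⟨fun _ => r, rfl⟩
    exact this.compactSpace (continuous_apply i)
  exact (not_compactSpace_iff.2 ‹NoncompactSpace R›) h2

/-! ### determinant of a unitary element -/

omit [IsTopologicalRing R] [IsTopologicalRing E] in
/-- For `x` unitary, the left multiplication by `x` has determinant of square one. -/
theorem det_sq [Nontrivial R] (x : E) (hx : star x * x = 1) :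
    LinearMap.det (LinearMap.mulLeft R x) * LinearMap.det (LinearMap.mulLeft R x) = 1 := by
  classical
  have hne : Nonempty ι := B.a.index_nonempty
  obtain ⟨i0⟩ := hne
  set t : A →ₗ[k] k := B.a.coord i0 with ht
  set tR : E →ₗ[R] R := B.b.constr R (fun i => algebraMap k R (t (B.a i))) with htR
  have htj : ∀ y : A, tR (B.j y) = algebraMap k R (t y) := by
    intro y
    rw [B.j_eq, map_sum]
    conv_rhs => rw [← B.a.sum_repr y, map_sum, map_sum]
    refine Finset.sum_congr rfl fun i _ => ?_
    rw [map_smul, map_smul, htR, Basis.constr_basis, smul_eq_mul, smul_eq_mul, map_mul]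
  let Bf : LinearMap.BilinForm R E :=
    LinearMap.mk₂ R (fun y z => tR (star y * z))
      (fun y y' z => by rw [star_add, add_mul, map_add])
      (fun r y z => by rw [B.star_smul, smul_mul_assoc, map_smul])
      (fun y z z' => by rw [mul_add, map_add])
      (fun r y z => by rw [mul_smul_comm, map_smul])
  have hBf : ∀ y z, Bf y z = tR (star y * z) := fun y z => rfl
  have hcomp : Bf.comp (LinearMap.mulLeft R x) (LinearMap.mulLeft R x) = Bf := by
    ext y z
    rw [LinearMap.BilinForm.comp_apply, hBf, hBf, LinearMap.mulLeft_apply,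
      LinearMap.mulLeft_apply, star_mul, mul_assoc, ← mul_assoc (star x), hx, one_mul]
  set X := LinearMap.toMatrix B.b B.b (LinearMap.mulLeft R x) with hX
  set G := LinearMap.BilinForm.toMatrix B.b Bf with hG
  have hXG : Xᵀ * G * X = G := by
    rw [hX, hG, ← LinearMap.BilinForm.toMatrix_comp, hcomp]
  -- the Gram matrix over k
  set G0 : Matrix ι ι k := Matrix.of fun i l => t (star (B.a i) * B.a l) with hG0
  have hGG : G = G0.map (algebraMap k R) := by
    ext i l
    rw [hG, LinearMap.BilinForm.toMatrix_apply, hBf, B.b_apply, B.b_apply, ← B.j_star,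
      ← map_mul, htj]
    rfl
  have hdet0 : G0.det ≠ 0 := by
    intro h0
    obtain ⟨v, hv, hGv⟩ := Matrix.exists_mulVec_eq_zero_iff.2 h0
    set z : A := ∑ l, v l • B.a l with hz
    have hz0 : z ≠ 0 := by
      intro hz0
      apply hv
      funext l
      have := Fintype.linearIndependent_iff.1 B.a.linearIndependent v hz0 l
      exact this
    have h1 : ∀ i, t (star (B.a i) * z) = 0 := by
      intro i
      have := congrFun hGv i
      rw [Matrix.mulVec, dotProduct] at this
      rw [hz, Finset.mul_sum, map_sum]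
      simp only [mul_smul_comm, map_smul, smul_eq_mul]
      simpa [hG0, mul_comm] using this
    have hstar : ∀ (c : k) (y : A), star (c • y) = c • star y := by
      intro c y
      have hinj : Function.Injective B.j := by
        intro y y' hyy
        apply B.a.repr.injective
        ext i
        have h2 := B.φ_eq y i
        rw [hyy, B.φ_eq y' i] at h2
        exact ((algebraMap k R).injective h2).symm
      apply hinj
      rw [B.j_star, B.j_smul, B.star_smul, B.j_smul, B.j_star]
    have h2 : ∀ y : A, t (y * z) = 0 := by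
      intro y
      have h3 : y = star (star y) := (star_star y).symm
      rw [h3, ← B.a.sum_repr (star y), star_sum, Finset.sum_mul, map_sum]
      refine Finset.sum_eq_zero fun i _ => ?_
      rw [hstar, smul_mul_assoc, map_smul, h1, smul_zero]
    have h3 : t (B.a i0) = 0 := by
      have := h2 (B.a i0 * z⁻¹)
      rwa [mul_assoc, inv_mul_cancel₀ hz0, mul_one] at this
    rw [ht, Basis.coord_apply, Basis.repr_self, Finsupp.single_eq_same] at h3
    exact one_ne_zero h3
  have hGu : IsUnit G.det := by
    rw [hGG, ← RingHom.mapMatrix_apply, ← RingHom.map_det]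
    exact (isUnit_iff_ne_zero.2 hdet0).map _
  have h1 := congrArg Matrix.det hXG
  rw [det_mul, det_mul, det_transpose] at h1
  rw [← LinearMap.det_toMatrix B.b, ← hX]
  have h2 : X.det * X.det * G.det = 1 * G.det := by
    rw [one_mul]; linear_combination h1
  exact hGu.mul_right_cancel h2

omit [IsTopologicalRing R] [IsTopologicalRing E] in
theorem j_inj [Nontrivial R] : Function.Injective B.j := by
  intro y y' hyy
  apply B.a.repr.injective
  ext i
  have h2 := B.φ_eq y i
  rw [hyy, B.φ_eq y' i] at h2
  exact ((algebraMap k R).injective h2).symm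

omit [IsTopologicalRing E] in
/-- The image of an order satisfies the hypotheses `Lat`. -/
theorem lat [Nontrivial R] {O : Subring k}
    (hOd : ∀ K : Set R, IsCompact K → {c : k | c ∈ O ∧ algebraMap k R c ∈ K}.Finite)
    (hOc : ∃ K : Set R, IsCompact K ∧ ∀ r : R, ∃ c ∈ O, r - algebraMap k R c ∈ K)
    {Lam : Subring A} (H : IsOrd B.a O Lam) : Lat (Lam.map B.j) where
  star_mem := by
    rintro _ ⟨x, hx, rfl⟩
    exact ⟨star x, H.star_mem x hx, B.j_star x⟩
  disc := by
    intro K hK
    obtain ⟨d, hd, hup⟩ := H.up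
    have hfin : {x : A | x ∈ Lam ∧ B.j x ∈ K}.Finite := by
      set f : A → (ι → k) := fun x i => d * B.a.repr x i with hf
      have hfinj : Function.Injective f := by
        intro x y hxy
        apply B.a.repr.injective
        ext i
        have := congrFun hxy i
        exact mul_left_cancel₀ hd this
      set S : ι → Set k := fun i =>
        {c : k | c ∈ O ∧ algebraMap k R c ∈ (fun x => algebraMap k R d * (B.φ x i)) '' K} with hS
      have hSf : (Set.pi Set.univ S).Finite := Set.Finite.pi fun i =>
        hOd _ (hK.image (by fun_prop))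
      refine (hSf.preimage hfinj.injOn).subset ?_
      rintro x ⟨hx, hxK⟩
      rw [Set.mem_preimage, Set.mem_univ_pi]
      intro i
      refine ⟨hup x hx i, B.j x, hxK, ?_⟩
      simp only [hf]
      rw [B.φ_eq, ← map_mul]
    refine (hfin.image B.j).subset ?_
    rintro _ ⟨hz, x, hx, rfl⟩
    exact ⟨x, ⟨hx, hz⟩, rfl⟩
  coc := by
    obtain ⟨K, hK, hcov⟩ := hOc
    obtain ⟨d, hd, hlo⟩ := H.lo
    refine ⟨B.φ.symm '' (Set.pi Set.univ fun _ => (fun r => algebraMap k R d * r) '' K),
      (isCompact_univ_pi fun _ => hK.image (by fun_prop)).image B.φ.symm.continuous,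
      fun x => ?_⟩
    choose c hc hcK using fun i => hcov (algebraMap k R d⁻¹ * B.φ x i)
    refine ⟨B.j (∑ i, (d * c i) • B.a i), ⟨_, hlo c hc, rfl⟩, ?_⟩
    refine ⟨B.φ (x - B.j (∑ i, (d * c i) • B.a i)), ?_, by simp⟩
    rw [Set.mem_univ_pi]
    intro i
    refine ⟨_, hcK i, ?_⟩
    have h1 : B.a.repr (∑ i, (d * c i) • B.a i) i = d * c i := by
      rw [Basis.repr_sum_self]
    rw [map_sub, Pi.sub_apply, B.φ_eq, h1, map_mul]
    simp only
    rw [mul_sub, ← mul_assoc, ← map_mul, mul_inv_cancel₀ hd, map_one, one_mul]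
  div := by
    rintro _ ⟨x, -, rfl⟩ h0
    have hx : x ≠ 0 := by
      rintro rfl
      exact h0 (map_zero _)
    exact (IsUnit.mk0 x hx).map B.j

omit [IsTopologicalRing E] in
/-- Haar measure on `E` is preserved by unitary elements. -/
theorem haar_unitary [Nontrivial R] [IsTopologicalRing E] (hR : DetOne R)
    [LocallyCompactSpace E]
    [MeasurableSpace E] [BorelSpace E] (μ : Measure E) [μ.IsAddHaarMeasure] [μ.Regular]
    (x : E) (hx : star x * x = 1) (s : Set E) : μ ((fun z => x * z) ⁻¹' s) = μ s :=
  haar_of_det hR B.φ μ (LinearMap.mulLeft R x) (B.det_sq x hx) s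

/-- **Cocompactness of the unitary group of an order in a division algebra.** -/
theorem unitary_cocompact [Nontrivial R] [LocallyCompactSpace R] [T2Space R] [NoncompactSpace R]
    (hR : DetOne R) {O : Subring k}
    (hOd : ∀ K : Set R, IsCompact K → {c : k | c ∈ O ∧ algebraMap k R c ∈ K}.Finite)
    (hOc : ∃ K : Set R, IsCompact K ∧ ∀ r : R, ∃ c ∈ O, r - algebraMap k R c ∈ K)
    {Lam : Subring A} [Countable Lam] (H : IsOrd B.a O Lam) :
    ∃ C : Set E, IsCompact C ∧ ∀ x : E, star x * x = 1 → x * star x = 1 →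
      ∃ w ∈ Lam, star w * w = 1 ∧ w * star w = 1 ∧ x * B.j w ∈ C := by
  have := B.continuousStar
  have := B.t2
  have := B.locallyCompact
  have : Nonempty ι := B.a.index_nonempty
  have := B.noncompact
  borelize E
  let μ : Measure E := Measure.addHaar
  have hc : Countable (Lam.map B.j) := by
    have : Function.Surjective (fun x : Lam => (⟨B.j x, ⟨x, x.2, rfl⟩⟩ : Lam.map B.j)) := by
      rintro ⟨_, x, hx, rfl⟩
      exact ⟨⟨x, hx⟩, rfl⟩
    exact this.countable
  obtain ⟨C, hC, h⟩ := (B.lat hOd hOc H).unitary_cocompact μ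
    (fun x hx _ s _ => B.haar_unitary hR μ x hx s)
  refine ⟨C, hC, fun x hx hx' => ?_⟩
  obtain ⟨_, ⟨w, hw, rfl⟩, h1, h2, h3⟩ := h x hx hx'
  refine ⟨w, hw, B.j_inj ?_, B.j_inj ?_, h3⟩
  · rw [map_mul, B.j_star, h1, map_one]
  · rw [map_mul, B.j_star, h2, map_one]

/-- The same for the kernel of a multiplicative continuous map `ν` (reduced norm). -/
theorem special_cocompact [Nontrivial R] [LocallyCompactSpace R] [T2Space R] [NoncompactSpace R]
    (hR : DetOne R) {O : Subring k}
    (hOd : ∀ K : Set R, IsCompact K → {c : k | c ∈ O ∧ algebraMap k R c ∈ K}.Finite)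
    (hOc : ∃ K : Set R, IsCompact K ∧ ∀ r : R, ∃ c ∈ O, r - algebraMap k R c ∈ K)
    {Lam : Subring A} [Countable Lam] (H : IsOrd B.a O Lam)
    {T : Type*} [Monoid T] [TopologicalSpace T] (ν : E → T) (hνc : Continuous ν)
    (hν1 : ν 1 = 1)
    (hνm : ∀ x y : E, star x * x = 1 → x * star x = 1 → star y * y = 1 → y * star y = 1 →
      ν (x * y) = ν x * ν y)
    (hν : ∀ K : Set T, IsCompact K →
      {t | t ∈ K ∧ ∃ w ∈ Lam, star w * w = 1 ∧ w * star w = 1 ∧ ν (B.j w) = t}.Finite) :
    ∃ C : Set E, IsCompact C ∧ ∀ x : E, star x * x = 1 → x * star x = 1 → ν x = 1 →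
      ∃ w ∈ Lam, star w * w = 1 ∧ w * star w = 1 ∧ ν (B.j w) = 1 ∧ x * B.j w ∈ C := by
  have := B.continuousStar
  have := B.t2
  have := B.locallyCompact
  have : Nonempty ι := B.a.index_nonempty
  have := B.noncompact
  borelize E
  let μ : Measure E := Measure.addHaar
  have hc : Countable (Lam.map B.j) := by
    have : Function.Surjective (fun x : Lam => (⟨B.j x, ⟨x, x.2, rfl⟩⟩ : Lam.map B.j)) := by
      rintro ⟨_, x, hx, rfl⟩
      exact ⟨⟨x, hx⟩, rfl⟩
    exact this.countable
  obtain ⟨C, hC, h⟩ := (B.lat hOd hOc H).special_cocompact μ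
    (fun x hx _ s _ => B.haar_unitary hR μ x hx s) ν hνc hν1 hνm
    (fun K hK => (hν K hK).subset (by
      rintro t ⟨ht, _, ⟨⟨w, hw, rfl⟩, h1, h2⟩, h3⟩
      refine ⟨ht, w, hw, B.j_inj ?_, B.j_inj ?_, h3⟩
      · rw [map_mul, B.j_star, h1, map_one]
      · rw [map_mul, B.j_star, h2, map_one]))
  refine ⟨C, hC, fun x hx hx' hx'' => ?_⟩
  obtain ⟨_, ⟨⟨w, hw, rfl⟩, h1, h2⟩, h3, h4⟩ := h x hx hx' hx''
  refine ⟨w, hw, B.j_inj ?_, B.j_inj ?_, h3, h4⟩
  · rw [map_mul, B.j_star, h1, map_one]
  · rw [map_mul, B.j_star, h2, map_one]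

end BC

end Vale.Agent.P011.H544
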