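import Vale.Agent.P011.Even.Completion
import Vale.Agent.P011.H544.DS

/-!
# The ring of `S`-integers is discrete and cocompact in `k_S`

`k` a number field, `S` a finite set of finite places, `k_S = k_∞ × ∏_{v ∈ S} k_v`.
-/

open NumberField IsDedekindDomain

namespace Vale.Agent.P011.H544

open Vale.Agent.P011 Vale.Agent.P011.Arith

section defs

variable (k : Type) [Field k] [NumberField k] (S : Finset (HeightOneSpectrum (𝓞 k)))

/-- `k_S` -/
abbrev KS : Type := (∀ v : InfinitePlace k, v.Completion) ×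
  (∀ v : S, (v : HeightOneSpectrum (𝓞 k)).adicCompletion k)

/-- the ring of `S`-integers -/
noncomputable def OS : Subring k := ((S : Set (HeightOneSpectrum (𝓞 k))).integer k).toSubring

theorem mem_OS {x : k} : x ∈ OS k S ↔ ∀ v, v ∉ S → v.valuation k x ≤ 1 := Iff.rfl

instance : Nontrivial (∀ v : InfinitePlace k, v.Completion) :=
  (inferInstance : Nonempty (InfinitePlace k)).elim fun w => Pi.nontrivial_at w

instance : Nontrivial (KS k S) := inferInstance
instance : T2Space (KS k S) := inferInstance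
instance : LocallyCompactSpace (KS k S) := inferInstance

theorem KS_detOne : DetOne (KS k S) := by
  refine DetOne.prod (DetOne.pi fun v => ?_) (DetOne.pi fun v => ?_)
  · have : CharZero v.Completion :=
      charZero_of_injective_algebraMap (algebraMap k v.Completion).injective
    exact DetOne.field ⟨2, two_ne_zero, by norm_num⟩
  · exact DetOne.field ⟨2, two_ne_zero, by norm_num⟩

variable {k} in
omit [NumberField k] in
theorem norm_ext (v : InfinitePlace k) (x : v.Completion) :
    ‖InfinitePlace.Completion.extensionEmbedding v x‖ = ‖x‖ :=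
  (InfinitePlace.Completion.isometry_extensionEmbedding v).norm_map_of_map_zero (map_zero _) x

variable {k} in
theorem norm_rat (v : InfinitePlace k) (q : ℚ) :
    ‖algebraMap k v.Completion (q : k)‖ = |(q : ℝ)| := by
  rw [← norm_ext, map_ratCast, map_ratCast, Complex.norm_ratCast]

instance (v : InfinitePlace k) : ProperSpace v.Completion := by
  refine ⟨fun x r => ?_⟩
  have h : Metric.closedBall x r = (InfinitePlace.Completion.extensionEmbedding v) ⁻¹'
      (Metric.closedBall (InfinitePlace.Completion.extensionEmbedding v x) r) := by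
    ext y
    rw [Set.mem_preimage, Metric.mem_closedBall, Metric.mem_closedBall,
      (InfinitePlace.Completion.isometry_extensionEmbedding v).dist_eq]
  rw [h]
  exact (InfinitePlace.Completion.isometry_extensionEmbedding v).isClosedEmbedding.isCompact_preimage
    (isCompact_closedBall _ _)

instance : NoncompactSpace (KS k S) := by
  refine not_compactSpace_iff.1 fun h => ?_
  obtain ⟨v⟩ : Nonempty (InfinitePlace k) := inferInstance
  have h1 : IsCompact (Set.range fun x : KS k S => ‖x.1 v‖) :=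
    isCompact_range (by fun_prop)
  obtain ⟨B, hB⟩ := h1.bddAbove
  obtain ⟨n, hn⟩ := exists_nat_gt B
  have h2 : ‖(algebraMap k (KS k S) ((n : ℚ) : k)).1 v‖ ≤ B := hB ⟨_, rfl⟩
  have h3 : (algebraMap k (KS k S) ((n : ℚ) : k)).1 v = algebraMap k v.Completion ((n : ℚ) : k) :=
    rfl
  rw [h3, norm_rat] at h2
  have h4 : (n : ℝ) ≤ B := by
    refine le_trans (le_abs_self _) ?_
    simpa using h2
  linarith

end defs

variable {k : Type} [Field k] [NumberField k] {S : Finset (HeightOneSpectrum (𝓞 k))}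

/-- a generator of a power of a prime ideal -/
theorem exists_gen_pow (v : HeightOneSpectrum (𝓞 k)) :
    ∃ x : 𝓞 k, (x : k) ≠ 0 ∧ v.valuation k (x : k) < 1 ∧
      ∀ w : HeightOneSpectrum (𝓞 k), w ≠ v → w.valuation k (x : k) = 1 := by
  obtain ⟨n, hn, x, hx⟩ : ∃ n : ℕ, n ≠ 0 ∧ ∃ x : 𝓞 k, v.asIdeal ^ n = Ideal.span {x} := by
    have hv0 : v.asIdeal ∈ nonZeroDivisors (Ideal (𝓞 k)) :=
      mem_nonZeroDivisors_of_ne_zero v.ne_bot
    refine ⟨Fintype.card (ClassGroup (𝓞 k)), Fintype.card_ne_zero, ?_⟩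
    have h1 : (ClassGroup.mk0 (⟨v.asIdeal, hv0⟩ : nonZeroDivisors (Ideal (𝓞 k)))) ^
        Fintype.card (ClassGroup (𝓞 k)) = 1 := pow_card_eq_one
    rw [← map_pow] at h1
    have h2 := (ClassGroup.mk0_eq_one_iff
      ((⟨v.asIdeal, hv0⟩ : nonZeroDivisors (Ideal (𝓞 k))) ^
        Fintype.card (ClassGroup (𝓞 k))).2).mp h1
    obtain ⟨x, hx⟩ := h2
    exact ⟨x, by rw [← Ideal.submodule_span_eq, ← hx]; rfl⟩
  have hx0 : x ≠ 0 := by
    rintro rfl
    rw [Ideal.span_singleton_eq_bot.mpr rfl] at hx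
    exact pow_ne_zero n v.ne_bot hx
  have hxF : (x : k) ≠ 0 := fun h0 => hx0 (RingOfIntegers.coe_eq_zero_iff.mp h0)
  refine ⟨x, hxF, ?_, fun w hw => ?_⟩
  · rw [v.valuation_lt_one_iff_mem]
    have h1 : x ∈ v.asIdeal ^ n := by rw [hx]; exact Ideal.mem_span_singleton_self x
    exact Ideal.pow_le_self hn h1
  · rw [w.valuation_eq_one_iff_notMem]
    intro hmem
    have h1 : Ideal.span {x} ≤ w.asIdeal := (Ideal.span_singleton_le_iff_mem _).2 hmem
    rw [← hx] at h1
    have h2 : v.asIdeal ≤ w.asIdeal := w.isPrime.le_of_pow_le h1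
    exact hw (HeightOneSpectrum.ext (v.isMaximal.eq_of_le w.isPrime.ne_top h2).symm)

/-- One finite place: an element of `k_v` is approximated by an element of `k` integral outside
`v`. -/
theorem fin_one (v : HeightOneSpectrum (𝓞 k)) (r : v.adicCompletion k) :
    ∃ c : k, (∀ w : HeightOneSpectrum (𝓞 k), w ≠ v → w.valuation k c ≤ 1) ∧
      ‖r - algebraMap k (v.adicCompletion k) c‖ ≤ 1 := by
  obtain ⟨y, hy⟩ := Even.dense v r 1 one_pos
  obtain ⟨x, hx0, hxv, hxw⟩ := exists_gen_pow v
  -- a power of `x` makes `y` integral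
  obtain ⟨n, hn⟩ : ∃ n : ℕ, v.valuation k ((x : k) ^ n * y) ≤ 1 := by
    have h1 : ‖algebraMap k (v.adicCompletion k) (x : k)‖ < 1 := by
      rw [Even.norm_lt_one_iff, Even.valued_alg]; exact hxv
    have h2 : Filter.Tendsto (fun n : ℕ => ‖algebraMap k (v.adicCompletion k) (x : k)‖ ^ n *
        ‖algebraMap k (v.adicCompletion k) y‖) Filter.atTop (nhds (0 * _)) :=
      (tendsto_pow_atTop_nhds_zero_of_lt_one (norm_nonneg _) h1).mul_const _
    rw [zero_mul] at h2
    obtain ⟨n, hn⟩ := (h2.eventually_le_const one_pos).exists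
    refine ⟨n, ?_⟩
    rw [← norm_pow, ← norm_mul, ← map_pow, ← map_mul, Even.norm_le_one_iff,
      Even.valued_alg] at hn
    exact hn
  have hxn : v.valuation k ((x : k) ^ n) ≠ 0 :=
    (Valuation.ne_zero_iff _).2 (pow_ne_zero _ hx0)
  obtain ⟨a, ha⟩ := v.exists_valuation_sub_lt_of_integer hn (Units.mk0 _ hxn)
  refine ⟨(a : k) / (x : k) ^ n, fun w hw => ?_, ?_⟩
  · rw [map_div₀, map_pow, hxw w hw, one_pow, div_one]
    exact w.valuation_le_one a
  · have h1 : v.valuation k (y - (a : k) / (x : k) ^ n) ≤ 1 := by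
      have h2 : y - (a : k) / (x : k) ^ n = -(((a : k) - (x : k) ^ n * y) / (x : k) ^ n) := by
        field_simp
        ring
      rw [h2, Valuation.map_neg, map_div₀]
      exact (div_le_one₀ (zero_lt_iff.2 hxn)).2 (le_of_lt ha)
    have h3 : r - algebraMap k (v.adicCompletion k) ((a : k) / (x : k) ^ n) =
        (r - algebraMap k (v.adicCompletion k) y) +
          algebraMap k (v.adicCompletion k) (y - (a : k) / (x : k) ^ n) := by
      rw [map_sub]; ring
    have := Even.isUltra v
    rw [h3]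
    refine (IsUltrametricDist.norm_add_le_max _ _).trans (max_le hy.le ?_)
    rw [Even.norm_le_one_iff, Even.valued_alg]
    exact h1

/-- Several finite places. -/
theorem fin_all (r : ∀ v : S, (v : HeightOneSpectrum (𝓞 k)).adicCompletion k) :
    ∃ c ∈ OS k S, ∀ v : S,
      ‖r v - algebraMap k ((v : HeightOneSpectrum (𝓞 k)).adicCompletion k) c‖ ≤ 1 := by
  classical
  choose c hc hcr using fun v : S => fin_one (v : HeightOneSpectrum (𝓞 k)) (r v)
  refine ⟨∑ v, c v, ?_, fun v => ?_⟩
  · exact Subring.sum_mem _ fun v _ w hw => hc v w (by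
      rintro rfl
      exact hw v.2)
  · have := Even.isUltra (v : HeightOneSpectrum (𝓞 k))
    rw [← Finset.add_sum_erase _ _ (Finset.mem_univ v), map_add, ← sub_sub, sub_eq_add_neg]
    refine (IsUltrametricDist.norm_add_le_max _ _).trans (max_le (hcr v) ?_)
    rw [norm_neg, map_sum]
    refine IsUltrametricDist.norm_sum_le_of_forall_le_of_nonneg zero_le_one fun w hw => ?_
    rw [Even.norm_le_one_iff, Even.valued_alg]
    refine hc w v ?_
    intro h
    exact (Finset.ne_of_mem_erase hw) (Subtype.ext h.symm)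

/-- Infinite places. -/
theorem inf_coc : ∃ B : ℝ, ∀ r : (∀ v : InfinitePlace k, v.Completion),
    ∃ c : 𝓞 k, ∀ v, ‖r v - algebraMap k v.Completion (c : k)‖ ≤ B := by
  classical
  set b := integralBasis k with hb
  refine ⟨1 + ∑ v : InfinitePlace k, ∑ i, ‖algebraMap k v.Completion (b i)‖, fun r => ?_⟩
  obtain ⟨x, hx⟩ : ∃ x : k, ∀ v, ‖r v - algebraMap k v.Completion x‖ < 1 := by
    have h1 : IsOpen {z : (∀ v : InfinitePlace k, v.Completion) | ∀ v, ‖r v - z v‖ < 1} := by
      simp only [Set.ofPred_forall]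
      exact isOpen_iInter_of_finite fun v => isOpen_lt (by fun_prop) continuous_const
    obtain ⟨x, hx⟩ := (InfiniteAdeleRing.denseRange_algebraMap k).exists_mem_open h1
      ⟨r, fun v => by simp⟩
    exact ⟨x, hx⟩
  refine ⟨∑ i, ⌊b.repr x i⌋ • RingOfIntegers.basis k i, fun v => ?_⟩
  have hc : ((∑ i, ⌊b.repr x i⌋ • RingOfIntegers.basis k i : 𝓞 k) : k) =
      ∑ i, ((⌊b.repr x i⌋ : ℚ) : k) * b i := by
    change algebraMap (𝓞 k) k _ = _
    rw [map_sum]
    refine Finset.sum_congr rfl fun i _ => ?_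
    rw [hb, integralBasis_apply, zsmul_eq_mul, map_mul]
    simp
  have hx' : x = ∑ i, ((b.repr x i : ℚ) : k) * b i := by
    conv_lhs => rw [← b.sum_repr x]
    exact Finset.sum_congr rfl fun i _ => by rw [Rat.smul_def]
  have hdiff : x - ((∑ i, ⌊b.repr x i⌋ • RingOfIntegers.basis k i : 𝓞 k) : k) =
      ∑ i, ((Int.fract (b.repr x i) : ℚ) : k) * b i := by
    rw [hc]
    calc x - ∑ i, ((⌊b.repr x i⌋ : ℚ) : k) * b i
        = ∑ i, ((b.repr x i : ℚ) : k) * b i - ∑ i, ((⌊b.repr x i⌋ : ℚ) : k) * b i := by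
          rw [← hx']
      _ = _ := by
          rw [← Finset.sum_sub_distrib]
          refine Finset.sum_congr rfl fun i _ => ?_
          rw [← sub_mul, ← Rat.cast_sub]
          rfl
  have h1 : ‖algebraMap k v.Completion
      (x - ((∑ i, ⌊b.repr x i⌋ • RingOfIntegers.basis k i : 𝓞 k) : k))‖ ≤
      ∑ i, ‖algebraMap k v.Completion (b i)‖ := by
    rw [hdiff, map_sum]
    refine (norm_sum_le _ _).trans (Finset.sum_le_sum fun i _ => ?_)
    rw [map_mul, norm_mul, norm_rat]
    refine mul_le_of_le_one_left (norm_nonneg _) ?_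
    rw [← Rat.cast_abs]
    have : |Int.fract (b.repr x i)| ≤ 1 := by
      rw [abs_of_nonneg (Int.fract_nonneg _)]
      exact (Int.fract_lt_one _).le
    exact_mod_cast this
  have h2 : ∑ i, ‖algebraMap k v.Completion (b i)‖ ≤
      ∑ v : InfinitePlace k, ∑ i, ‖algebraMap k v.Completion (b i)‖ :=
    Finset.single_le_sum (f := fun v : InfinitePlace k => ∑ i, ‖algebraMap k v.Completion (b i)‖)
      (fun _ _ => Finset.sum_nonneg fun _ _ => norm_nonneg _) (Finset.mem_univ v)
  have h3 : r v - algebraMap k v.Completion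
      ((∑ i, ⌊b.repr x i⌋ • RingOfIntegers.basis k i : 𝓞 k) : k) =
      (r v - algebraMap k v.Completion x) + algebraMap k v.Completion
        (x - ((∑ i, ⌊b.repr x i⌋ • RingOfIntegers.basis k i : 𝓞 k) : k)) := by
    rw [map_sub]; ring
  rw [h3]
  exact (norm_add_le _ _).trans (add_le_add (hx v).le (h1.trans h2))

/-- **Cocompactness of the `S`-integers.** -/
theorem OS_coc : ∃ K : Set (KS k S), IsCompact K ∧
    ∀ r : KS k S, ∃ c ∈ OS k S, r - algebraMap k (KS k S) c ∈ K := by
  classical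
  obtain ⟨B, hB⟩ := inf_coc (k := k)
  refine ⟨(Set.pi Set.univ fun v : InfinitePlace k => Metric.closedBall (0 : v.Completion) B) ×ˢ
    (Set.pi Set.univ fun v : S =>
      Metric.closedBall (0 : (v : HeightOneSpectrum (𝓞 k)).adicCompletion k) 1),
    (isCompact_univ_pi fun v => isCompact_closedBall _ _).prod
      (isCompact_univ_pi fun v => isCompact_closedBall _ _), fun r => ?_⟩
  obtain ⟨c, hc, hcr⟩ := fin_all (S := S) r.2
  obtain ⟨d, hd⟩ := hB (fun v => r.1 v - algebraMap k v.Completion c)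
  refine ⟨c + d, Subring.add_mem _ hc fun v _ => v.valuation_le_one d, ?_, ?_⟩
  · rw [Set.mem_univ_pi]
    intro v
    rw [mem_closedBall_zero_iff]
    have h1 := hd v
    rw [sub_sub, ← map_add] at h1
    exact h1
  · rw [Set.mem_univ_pi]
    intro v
    rw [mem_closedBall_zero_iff]
    have := Even.isUltra (v : HeightOneSpectrum (𝓞 k))
    have h1 : (r - algebraMap k (KS k S) (c + d)).2 v =
        (r.2 v - algebraMap k ((v : HeightOneSpectrum (𝓞 k)).adicCompletion k) c) +
          algebraMap k ((v : HeightOneSpectrum (𝓞 k)).adicCompletion k) (-(d : k)) := by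
      have h2 : (r - algebraMap k (KS k S) (c + d)).2 v =
        r.2 v - algebraMap k ((v : HeightOneSpectrum (𝓞 k)).adicCompletion k) (c + d) := rfl
      rw [h2, map_add, map_neg]
      ring
    rw [h1]
    refine (IsUltrametricDist.norm_add_le_max _ _).trans (max_le (hcr v) ?_)
    rw [Even.norm_le_one_iff, Even.valued_alg, Valuation.map_neg]
    exact HeightOneSpectrum.valuation_le_one _ d

/-- **Discreteness of the `S`-integers.** -/
theorem OS_disc (K : Set (KS k S)) (hK : IsCompact K) :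
    {c : k | c ∈ OS k S ∧ algebraMap k (KS k S) c ∈ K}.Finite := by
  classical
  -- bounds
  have hBi : ∀ v : InfinitePlace k, ∃ B : ℝ, ∀ x ∈ K, ‖x.1 v‖ ≤ B := by
    intro v
    obtain ⟨B, hB⟩ := (hK.image (f := fun x : KS k S => ‖x.1 v‖) (by fun_prop)).bddAbove
    exact ⟨B, fun x hx => hB ⟨x, hx, rfl⟩⟩
  have hBf : ∀ v : S, ∃ B : ℝ, ∀ x ∈ K, ‖x.2 v‖ ≤ B := by
    intro v
    obtain ⟨B, hB⟩ := (hK.image (f := fun x : KS k S => ‖x.2 v‖) (by fun_prop)).bddAbove
    exact ⟨B, fun x hx => hB ⟨x, hx, rfl⟩⟩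
  choose Bi hBi using hBi
  choose Bf hBf using hBf
  -- an integer killing the denominators
  have hm : ∀ v : S, ∃ m : 𝓞 k, (m : k) ≠ 0 ∧ ∀ x ∈ K,
      ‖algebraMap k ((v : HeightOneSpectrum (𝓞 k)).adicCompletion k) (m : k)‖ * ‖x.2 v‖ ≤ 1 := by
    intro v
    obtain ⟨π, hπ0, hπ1, -⟩ := exists_gen_pow (v : HeightOneSpectrum (𝓞 k))
    have h1 : ‖algebraMap k ((v : HeightOneSpectrum (𝓞 k)).adicCompletion k) (π : k)‖ < 1 := by
      rw [Even.norm_lt_one_iff, Even.valued_alg]; exact hπ1
    have h2 : Filter.Tendsto (fun n : ℕ =>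
        ‖algebraMap k ((v : HeightOneSpectrum (𝓞 k)).adicCompletion k) (π : k)‖ ^ n * |Bf v|)
        Filter.atTop (nhds (0 * |Bf v|)) :=
      (tendsto_pow_atTop_nhds_zero_of_lt_one (norm_nonneg _) h1).mul_const _
    rw [zero_mul] at h2
    obtain ⟨n, hn⟩ := (h2.eventually_le_const one_pos).exists
    refine ⟨π ^ n, by push_cast; exact pow_ne_zero _ hπ0, fun x hx => ?_⟩
    have h3 : (((π ^ n : 𝓞 k)) : k) = (π : k) ^ n := by push_cast; rfl
    rw [h3, map_pow, norm_pow]
    refine le_trans (mul_le_mul_of_nonneg_left ((hBf v x hx).trans (le_abs_self _))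
      (by positivity)) hn
  choose m hm0 hm using hm
  set M : 𝓞 k := ∏ v, m v with hM
  have hM0 : (M : k) ≠ 0 := by
    change algebraMap (𝓞 k) k M ≠ 0
    rw [hM, map_prod]
    exact Finset.prod_ne_zero_iff.2 fun v _ => hm0 v
  -- the multiple by M is integral
  have hint : ∀ c ∈ OS k S, algebraMap k (KS k S) c ∈ K → ∃ y : 𝓞 k, (y : k) = M * c := by
    intro c hc hcK
    have h1 : ∀ v : HeightOneSpectrum (𝓞 k), v.valuation k ((M : k) * c) ≤ 1 := by
      intro v
      by_cases hv : v ∈ S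
      · rw [← Even.valued_alg, ← Even.norm_le_one_iff, map_mul, norm_mul]
        have h2 := hm ⟨v, hv⟩ _ hcK
        have h3 : (algebraMap k (KS k S) c).2 ⟨v, hv⟩ = algebraMap k (v.adicCompletion k) c := rfl
        rw [h3] at h2
        refine le_trans (mul_le_mul_of_nonneg_right ?_ (norm_nonneg _)) h2
        change ‖algebraMap k (v.adicCompletion k) (algebraMap (𝓞 k) k M)‖ ≤ _
        rw [hM, ← Finset.mul_prod_erase _ _ (Finset.mem_univ (⟨v, hv⟩ : S)), map_mul, map_mul,
          norm_mul]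
        refine mul_le_of_le_one_right (norm_nonneg _) ?_
        rw [Even.norm_le_one_iff, Even.valued_alg]
        exact v.valuation_le_one _
      · rw [map_mul]
        exact mul_le_one' (v.valuation_le_one M) (hc v hv)
    obtain ⟨y, hy⟩ := HeightOneSpectrum.mem_integers_of_valuation_le_one k _ h1
    exact ⟨y, hy⟩
  -- the finite set
  obtain ⟨B0, hB0⟩ : ∃ B0 : ℝ, ∀ v, |Bi v| ≤ B0 := by
    refine ⟨∑ v, |Bi v|, fun v => Finset.single_le_sum (f := fun v => |Bi v|)
      (fun _ _ => abs_nonneg _) (Finset.mem_univ v)⟩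
  obtain ⟨B1, hB1⟩ : ∃ B1 : ℝ, ∀ φ : k →+* ℂ, ‖φ (M : k)‖ ≤ B1 := by
    refine ⟨∑ φ : k →+* ℂ, ‖φ (M : k)‖, fun φ => Finset.single_le_sum
      (f := fun φ : k →+* ℂ => ‖φ (M : k)‖) (fun _ _ => norm_nonneg _) (Finset.mem_univ φ)⟩
  have hfin := Embeddings.finite_of_norm_le k ℂ (B1 * B0)
  refine (hfin.preimage (f := fun c => (M : k) * c)
    (mul_right_injective₀ hM0).injOn).subset ?_
  rintro c ⟨hc, hcK⟩
  obtain ⟨y, hy⟩ := hint c hc hcK
  refine ⟨?_, fun φ => ?_⟩
  · change IsIntegral ℤ ((M : k) * c)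
    rw [← hy]
    exact y.isIntegral_coe
  · change ‖φ ((M : k) * c)‖ ≤ _
    rw [map_mul, norm_mul]
    have h1 : ‖φ c‖ ≤ B0 := by
      have h2 := hBi (InfinitePlace.mk φ) _ hcK
      have h3 : (algebraMap k (KS k S) c).1 (InfinitePlace.mk φ) =
        algebraMap k (InfinitePlace.mk φ).Completion c := rfl
      rw [h3] at h2
      have h4 : ‖algebraMap k (InfinitePlace.mk φ).Completion c‖ = ‖φ c‖ := by
        rw [← norm_ext]
        have h5 : InfinitePlace.Completion.extensionEmbedding (InfinitePlace.mk φ)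
            (algebraMap k (InfinitePlace.mk φ).Completion c) =
            (InfinitePlace.mk φ).embedding c :=
          InfinitePlace.Completion.extensionEmbedding_coe _ _
        rw [h5, InfinitePlace.norm_embedding_eq, InfinitePlace.apply]
      rw [← h4]
      exact h2.trans ((le_abs_self _).trans (hB0 _))
    exact mul_le_mul (hB1 φ) h1 (norm_nonneg _) ((norm_nonneg _).trans (hB1 φ))

end Vale.Agent.P011.H544
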