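import Vale.Agent.P011.H544.TopBC

/-!
# Orders, and the unitary cocompactness for `BE`
-/

open Module TensorProduct

set_option linter.unusedSectionVars false

namespace Vale.Agent.P011.H544

section ord

variable {k A ι : Type*} [Field k] [DivisionRing A] [StarRing A] [Algebra k A] [Fintype ι]
  (a : Basis ι k A)

/-- The set of elements with coordinates in `O`. -/
def InL (O : Subring k) (x : A) : Prop := ∀ i, a.repr x i ∈ O

theorem InL.add {O : Subring k} {x y : A} (hx : InL a O x) (hy : InL a O y) : InL a O (x + y) :=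
  fun i => by rw [map_add]; exact O.add_mem (hx i) (hy i)

theorem InL.sum {O : Subring k} {κ : Type*} (s : Finset κ) (f : κ → A)
    (h : ∀ i ∈ s, InL a O (f i)) : InL a O (∑ i ∈ s, f i) := fun l => by
  rw [map_sum, Finsupp.finsetSum_apply]
  exact O.sum_mem fun i hi => h i hi l

theorem InL.smul {O : Subring k} {c : k} {x : A} (hc : c ∈ O) (hx : InL a O x) :
    InL a O (c • x) := fun i => by
  rw [map_smul, Finsupp.smul_apply, smul_eq_mul]; exact O.mul_mem hc (hx i)

/-- The order of the elements `x` such that `x` and `star x` preserve the lattice. -/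
def ordO (O : Subring k) : Subring A where
  carrier := {x | (∀ y, InL a O y → InL a O (x * y)) ∧ ∀ y, InL a O y → InL a O (star x * y)}
  mul_mem' := by
    rintro x x' ⟨h1, h2⟩ ⟨h3, h4⟩
    refine ⟨fun y hy => ?_, fun y hy => ?_⟩
    · rw [mul_assoc]; exact h1 _ (h3 _ hy)
    · rw [star_mul, mul_assoc]; exact h4 _ (h2 _ hy)
  one_mem' := ⟨fun y hy => by rwa [one_mul], fun y hy => by rwa [star_one, one_mul]⟩
  add_mem' := by
    rintro x x' ⟨h1, h2⟩ ⟨h3, h4⟩
    refine ⟨fun y hy => ?_, fun y hy => ?_⟩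
    · rw [add_mul]; exact (h1 _ hy).add a (h3 _ hy)
    · rw [star_add, add_mul]; exact (h2 _ hy).add a (h4 _ hy)
  zero_mem' := ⟨fun y _ i => by simp, fun y _ i => by simp⟩
  neg_mem' := by
    rintro x ⟨h1, h2⟩
    refine ⟨fun y hy i => ?_, fun y hy i => ?_⟩
    · rw [neg_mul, map_neg]; exact O.neg_mem (h1 y hy i)
    · rw [star_neg, neg_mul, map_neg]; exact O.neg_mem (h2 y hy i)

/-- `d` is a common denominator of the structure constants. -/
structure Den (d : k) (O : Subring k) : Prop where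
  ne : d ≠ 0
  one : InL a O (d • (1 : A))
  mul : ∀ i l, InL a O (d • (a i * a l))
  star : ∀ i l, InL a O (d • (star (a i) * a l))

theorem Den.mono {d : k} {O O' : Subring k} (h : O ≤ O') (H : Den a d O) : Den a d O' :=
  ⟨H.ne, fun i => h (H.one i), fun i l j => h (H.mul i l j), fun i l j => h (H.star i l j)⟩

theorem exists_den (O : Subring k) (hO : ∀ x : k, ∃ d ∈ O, d ≠ 0 ∧ d * x ∈ O) :
    ∃ d ∈ O, Den a d O := by
  classical
  -- common denominators of finite families
  have hfin : ∀ (κ : Type _) (s : Finset κ) (f : κ → k), ∃ d ∈ O, d ≠ 0 ∧ ∀ i ∈ s, d * f i ∈ O := by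
    intro κ s f
    induction s using Finset.induction_on with
    | empty => exact ⟨1, O.one_mem, one_ne_zero, by simp⟩
    | insert i s hi ih =>
      obtain ⟨d, hd, hd0, hd1⟩ := ih
      obtain ⟨e, he, he0, he1⟩ := hO (f i)
      refine ⟨d * e, O.mul_mem hd he, mul_ne_zero hd0 he0, fun j hj => ?_⟩
      rcases Finset.mem_insert.1 hj with rfl | hj
      · rw [mul_assoc]; exact O.mul_mem hd he1
      · rw [mul_comm d e, mul_assoc]; exact O.mul_mem he (hd1 j hj)
  obtain ⟨d1, h1, h10, h11⟩ := hfin ι Finset.univ (fun i => a.repr 1 i)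
  obtain ⟨d2, h2, h20, h21⟩ := hfin (ι × ι × ι) Finset.univ
    (fun p => a.repr (a p.1 * a p.2.1) p.2.2)
  obtain ⟨d3, h3, h30, h31⟩ := hfin (ι × ι × ι) Finset.univ
    (fun p => a.repr (star (a p.1) * a p.2.1) p.2.2)
  refine ⟨d1 * d2 * d3, O.mul_mem (O.mul_mem h1 h2) h3,
    mul_ne_zero (mul_ne_zero h10 h20) h30, fun i => ?_, fun i l j => ?_, fun i l j => ?_⟩
  · rw [map_smul, Finsupp.smul_apply, smul_eq_mul]
    have : d1 * d2 * d3 * a.repr 1 i = d2 * d3 * (d1 * a.repr 1 i) := by ring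
    rw [this]
    exact O.mul_mem (O.mul_mem h2 h3) (h11 i (Finset.mem_univ _))
  · rw [map_smul, Finsupp.smul_apply, smul_eq_mul]
    have : d1 * d2 * d3 * a.repr (a i * a l) j = d1 * d3 * (d2 * a.repr (a i * a l) j) := by ring
    rw [this]
    exact O.mul_mem (O.mul_mem h1 h3) (h21 (i, l, j) (Finset.mem_univ _))
  · rw [map_smul, Finsupp.smul_apply, smul_eq_mul]
    have : d1 * d2 * d3 * a.repr (star (a i) * a l) j =
      d1 * d2 * (d3 * a.repr (star (a i) * a l) j) := by ring
    rw [this]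
    exact O.mul_mem (O.mul_mem h1 h2) (h31 (i, l, j) (Finset.mem_univ _))

/-- The order is an order, with explicit denominator. -/
theorem isOrd_ordO [StarLin k A] {d : k} {O : Subring k} (H : Den a d O) :
    IsOrd a O (ordO a O) ∧ ∀ x ∈ ordO a O, ∀ i, d * a.repr x i ∈ O := by
  classical
  have hup : ∀ x ∈ ordO a O, ∀ i, d * a.repr x i ∈ O := by
    rintro x ⟨hx, -⟩ i
    have h1 := hx _ H.one i
    rwa [mul_smul_comm, mul_one, map_smul, Finsupp.smul_apply, smul_eq_mul] at h1
  have hL : ∀ z : A, (∀ l, InL a O (z * a l)) → ∀ y, InL a O y → InL a O (z * y) := by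
    intro z hz y hy
    rw [← a.sum_repr y, Finset.mul_sum]
    refine InL.sum a _ _ fun l _ => ?_
    rw [mul_smul_comm]
    exact InL.smul a (hy l) (hz l)
  refine ⟨⟨?_, ⟨d, H.ne, hup⟩, d, H.ne, fun c hc => ⟨hL _ fun l => ?_, hL _ fun l => ?_⟩⟩, hup⟩
  · rintro x ⟨h1, h2⟩
    exact ⟨h2, by rwa [star_star]⟩
  · rw [Finset.sum_mul]
    refine InL.sum a _ _ fun i _ => ?_
    rw [smul_mul_assoc, mul_comm d, mul_smul]
    exact InL.smul a (hc i) (H.mul i l)
  · rw [star_sum, Finset.sum_mul]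
    refine InL.sum a _ _ fun i _ => ?_
    rw [StarLin.star_smul', smul_mul_assoc, mul_comm d, mul_smul]
    exact InL.smul a (hc i) (H.star i l)

end ord

end Vale.Agent.P011.H544
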