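import Vale.Agent.P011.H544.Ord
import Vale.Agent.P011.H544.SInt
import Vale.Agent.P011.Even.GNorm
import Vale.Agent.P011.Even.Defs

/-!
# Cocompactness for number fields, in terms of elements of `D`

`U(O_S)` is cocompact in `U(k_∞) × ∏_{v ∈ S} U(k_v)`, tested on families of elements of `U(k)`.
-/

open NumberField IsDedekindDomain Module TensorProduct

set_option linter.unusedSectionVars false

namespace Vale.Agent.P011.H544

open Vale.Agent.P011 Vale.Agent.P011.Arith Vale.Agent.P011.Even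

variable {k D : Type} [Field k] [NumberField k] [DivisionRing D] [StarRing D] [Algebra k D]
  {N : ℕ} (B : Basis (Fin N) k D) (S : Finset (HeightOneSpectrum (𝓞 k)))

theorem norm_adic (v : HeightOneSpectrum (𝓞 k)) (x : k) :
    ‖algebraMap k (v.adicCompletion k) x‖ = plAbv (Sum.inl v) x := by
  rw [Even.norm_eq, Even.valued_alg]
  rfl

theorem norm_inf (φ : k →+* ℂ) (x : k) :
    ‖algebraMap k (InfinitePlace.mk φ).Completion x‖ = ‖φ x‖ := by
  rw [← norm_ext]
  have h5 : InfinitePlace.Completion.extensionEmbedding (InfinitePlace.mk φ)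
      (algebraMap k (InfinitePlace.mk φ).Completion x) =
      (InfinitePlace.mk φ).embedding x :=
    InfinitePlace.Completion.extensionEmbedding_coe _ _
  rw [h5, InfinitePlace.norm_embedding_eq, InfinitePlace.apply]

instance : Countable k := by
  have h : Countable (Fin (Module.finrank ℚ k) → ℚ) := inferInstance
  exact (Module.finBasis ℚ k).equivFun.toEquiv.countable_iff.2 h

include B in
theorem countable_D : Countable D := B.equivFun.toEquiv.countable_iff.2 inferInstance

/-- idempotents of `k_S` -/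
noncomputable def eInf : KS k S := (1, 0)

/-- idempotents of `k_S` -/
noncomputable def eFin (v : S) : KS k S := by
  classical
  exact (0, Pi.single v 1)

/-- The element of `k_S ⊗ D` with component `y` at the infinite places and `z v` at `v`. -/
noncomputable def glueD (y : D) (z : S → D) : BE B (KS k S) :=
  ((eInf S) ⊗ₜ[k] y + ∑ v : S, (eFin S v) ⊗ₜ[k] (z v) : KS k S ⊗[k] D)

theorem eInf_mul : eInf (k := k) S * eInf S = eInf S := by
  ext <;> simp [eInf]

theorem eInf_eFin (v : S) : eInf (k := k) S * eFin S v = 0 := by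
  ext <;> simp [eInf, eFin]

theorem eFin_eInf (v : S) : eFin S v * eInf (k := k) S = 0 := by
  rw [mul_comm, eInf_eFin]

theorem eFin_self (v : S) : eFin S v * eFin S v = eFin S v := by
  classical
  ext w
  · simp [eFin]
  · simp only [eFin, Prod.mk_mul_mk]
    rw [← Pi.single_mul, one_mul]

theorem eFin_ne (v w : S) (h : v ≠ w) : eFin S v * eFin S w = 0 := by
  classical
  ext u
  · simp [eFin]
  · simp only [eFin, Prod.mk_mul_mk, Pi.mul_apply]
    by_cases hu : u = v
    · subst hu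
      rw [Pi.single_eq_of_ne h, mul_zero]; rfl
    · rw [Pi.single_eq_of_ne hu, zero_mul]; rfl

theorem e_sum : eInf (k := k) S + ∑ v : S, eFin S v = 1 := by
  classical
  ext u
  · simp [eInf, eFin, Prod.fst_sum]
  · have : (∑ v : S, eFin S v).2 = fun w : S => 1 := by
      rw [Prod.snd_sum]
      funext w
      rw [Finset.sum_apply, Finset.sum_eq_single w]
      · simp [eFin]
      · intro v _ hv
        simp only [eFin]
        rw [Pi.single_eq_of_ne hv.symm]
      · simp
    simp only [Prod.snd_add, eInf, zero_add, this]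
    rfl

theorem glueD_mul (y y' : D) (z z' : S → D) :
    glueD B S y z * glueD B S y' z' = glueD B S (y * y') (fun v => z v * z' v) := by
  classical
  have h : ((eInf S) ⊗ₜ[k] y + ∑ v : S, (eFin S v) ⊗ₜ[k] (z v) : KS k S ⊗[k] D) *
      ((eInf S) ⊗ₜ[k] y' + ∑ v : S, (eFin S v) ⊗ₜ[k] (z' v)) =
      ((eInf S) ⊗ₜ[k] (y * y') + ∑ v : S, (eFin S v) ⊗ₜ[k] (z v * z' v) :
        KS k S ⊗[k] D) := by
    rw [add_mul, mul_add, mul_add, Algebra.TensorProduct.tmul_mul_tmul, eInf_mul,
      Finset.mul_sum, Finset.sum_mul, Finset.sum_mul_sum]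
    have h1 : ∀ v : S, (eInf S ⊗ₜ[k] y : KS k S ⊗[k] D) * (eFin S v ⊗ₜ[k] z' v) = 0 := by
      intro v
      rw [Algebra.TensorProduct.tmul_mul_tmul, eInf_eFin, TensorProduct.zero_tmul]
    have h2 : ∀ v : S, (eFin S v ⊗ₜ[k] z v : KS k S ⊗[k] D) * (eInf S ⊗ₜ[k] y') = 0 := by
      intro v
      rw [Algebra.TensorProduct.tmul_mul_tmul, eFin_eInf, TensorProduct.zero_tmul]
    have h3 : ∀ v : S, ∑ w : S, (eFin S v ⊗ₜ[k] z v : KS k S ⊗[k] D) * (eFin S w ⊗ₜ[k] z' w) =
        eFin S v ⊗ₜ[k] (z v * z' v) := by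
      intro v
      rw [Finset.sum_eq_single v]
      · rw [Algebra.TensorProduct.tmul_mul_tmul, eFin_self]
      · intro w _ hw
        rw [Algebra.TensorProduct.tmul_mul_tmul, eFin_ne S v w hw.symm, TensorProduct.zero_tmul]
      · simp
    simp only [h1, h2, h3, Finset.sum_const_zero, add_zero, zero_add]
  exact h

theorem glueD_one : glueD B S 1 (fun _ => 1) = 1 := by
  have h : ((eInf S) ⊗ₜ[k] (1 : D) + ∑ v : S, (eFin S v) ⊗ₜ[k] (1 : D) : KS k S ⊗[k] D) = 1 := by
    rw [← TensorProduct.sum_tmul, ← TensorProduct.add_tmul, e_sum]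
    rfl
  exact h

theorem glueD_star [StarLin k D] (y : D) (z : S → D) :
    star (glueD B S y z) = glueD B S (star y) (fun v => star (z v)) := by
  have h : starT (k := k) (A := D) (KS k S)
      ((eInf S) ⊗ₜ[k] y + ∑ v : S, (eFin S v) ⊗ₜ[k] (z v)) =
      ((eInf S) ⊗ₜ[k] (star y) + ∑ v : S, (eFin S v) ⊗ₜ[k] (star (z v)) :
        KS k S ⊗[k] D) := by
    rw [map_add, map_sum, starT_tmul]
    simp only [starT_tmul]
  exact h

theorem glueD_j [StarLin k D] (y : D) :
    (bcT B (KS k S)).j y = glueD B S y (fun _ => y) := by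
  have h : ((eInf S) ⊗ₜ[k] y + ∑ v : S, (eFin S v) ⊗ₜ[k] y : KS k S ⊗[k] D) = 1 ⊗ₜ y := by
    rw [← TensorProduct.sum_tmul, ← TensorProduct.add_tmul, e_sum]
  exact h.symm

theorem eqF_tmul (r : KS k S) (y : D) (i : Fin N) :
    eqF B (KS k S) (r ⊗ₜ[k] y : KS k S ⊗[k] D) i = r * algebraMap k (KS k S) (B.repr y i) := by
  change (B.baseChange (KS k S)).repr (r ⊗ₜ[k] y) i = _
  rw [Basis.baseChange_repr_tmul, Algebra.smul_def, mul_comm]

theorem eqF_glueD (y : D) (z : S → D) (i : Fin N) :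
    eqF B (KS k S) (glueD B S y z) i = eInf S * algebraMap k (KS k S) (B.repr y i) +
      ∑ v : S, eFin S v * algebraMap k (KS k S) (B.repr (z v) i) := by
  have h : (B.baseChange (KS k S)).equivFun
      ((eInf S) ⊗ₜ[k] y + ∑ v : S, (eFin S v) ⊗ₜ[k] (z v)) i =
      eInf S * algebraMap k (KS k S) (B.repr y i) +
      ∑ v : S, eFin S v * algebraMap k (KS k S) (B.repr (z v) i) := by
    rw [map_add, map_sum, Pi.add_apply, Finset.sum_apply]
    congr 1
    · exact eqF_tmul B S _ _ _
    · exact Finset.sum_congr rfl fun v _ => eqF_tmul B S _ _ _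
  exact h

theorem glueD_inf (y : D) (z : S → D) (i : Fin N) (v : InfinitePlace k) :
    (eqF B (KS k S) (glueD B S y z) i).1 v = algebraMap k v.Completion (B.repr y i) := by
  rw [eqF_glueD]
  simp [eInf, eFin, Prod.fst_sum]

theorem glueD_fin (y : D) (z : S → D) (i : Fin N) (v : S) :
    (eqF B (KS k S) (glueD B S y z) i).2 v =
      algebraMap k ((v : HeightOneSpectrum (𝓞 k)).adicCompletion k) (B.repr (z v) i) := by
  classical
  rw [eqF_glueD, Prod.snd_add, Prod.snd_sum, Pi.add_apply, Finset.sum_apply,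
    Finset.sum_eq_single v]
  · simp [eInf, eFin]
  · intro w _ hw
    simp only [eFin, Prod.snd_mul, Pi.mul_apply]
    rw [Pi.single_eq_of_ne hw.symm, zero_mul]
  · simp

/-- **Cocompactness, elements of `D` only.**  `M` does not depend on `S`. -/
theorem coc_S (hst : ∀ (c : k) (x : D), star (c • x) = c • star x) :
    ∃ M : HeightOneSpectrum (𝓞 k) → ℝ, {w | M w ≠ 1}.Finite ∧ (∀ w, 0 < M w) ∧
      ∀ S : Finset (HeightOneSpectrum (𝓞 k)), ∃ R : ℝ, ∀ a : S → D,
        (∀ v, star (a v) * a v = 1) → (∀ v, a v * star (a v) = 1) →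
        ∃ lam : D, star lam * lam = 1 ∧ lam * star lam = 1 ∧
          (∀ w, w ∉ S → ∀ i, plAbv (Sum.inl w) (B.repr lam i) ≤ M w) ∧
          (∀ (φ : k →+* ℂ) (i : Fin N), ‖φ (B.repr lam i)‖ ≤ R) ∧
          ∀ v : S, Even.nm B (Sum.inl (v : HeightOneSpectrum (𝓞 k))) (lam * star (a v)) ≤ R := by
  have hSL : StarLin k D := ⟨hst⟩
  -- the denominator
  have hfrac : ∀ x : k, ∃ d ∈ (algebraMap (𝓞 k) k).range, d ≠ 0 ∧
      d * x ∈ (algebraMap (𝓞 k) k).range := by
    intro x
    obtain ⟨n, d, hd, rfl⟩ := IsFractionRing.div_surjective (A := 𝓞 k) x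
    have hd0 : algebraMap (𝓞 k) k d ≠ 0 := by
      simpa using nonZeroDivisors.ne_zero hd
    exact ⟨_, ⟨d, rfl⟩, hd0, ⟨n, by field_simp⟩⟩
  obtain ⟨d, ⟨d', rfl⟩, hd⟩ := exists_den B (algebraMap (𝓞 k) k).range hfrac
  have hle : ∀ S, (algebraMap (𝓞 k) k).range ≤ OS k S := by
    rintro S _ ⟨x, rfl⟩ v _
    exact v.valuation_le_one x
  set d : k := algebraMap (𝓞 k) k d' with hdd
  refine ⟨fun w => (plAbv (Sum.inl w) d)⁻¹, ?_, fun w => ?_, fun S => ?_⟩
  · have hd0 : d' ≠ 0 := by
      rintro rfl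
      exact hd.ne (map_zero _)
    refine (Ideal.finite_factors (I := Ideal.span {d'}) (by simpa using hd0)).subset ?_
    intro w hw
    rw [Set.mem_ofPred_eq, ← w.valuation_lt_one_iff_dvd (K := k)]
    refine lt_of_le_of_ne (w.valuation_le_one d') fun h1 => hw ?_
    have h2 : plAbv (Sum.inl w) d = 1 := by
      rw [← norm_adic, Even.norm_eq, Even.valued_alg, hdd, h1]
      simp
    change (plAbv (Sum.inl w) d)⁻¹ = 1
    rw [h2, inv_one]
  · exact inv_pos.2 ((AbsoluteValue.pos_iff _).2 hd.ne)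
  · obtain ⟨hO, hup⟩ := isOrd_ordO B (hd.mono B (hle S))
    have := countable_D B
    obtain ⟨C, hC, h⟩ := (bcT B (KS k S)).unitary_cocompact (KS_detOne k S) OS_disc OS_coc hO
    -- bounds on the star of the compact set
    have hcs := (bcT B (KS k S)).continuousStar
    have hC' : IsCompact ((fun x : BE B (KS k S) => eqF B (KS k S) (star x)) '' C) :=
      hC.image ((cont_eqF B (KS k S)).comp continuous_star)
    obtain ⟨R1, hR1⟩ : ∃ R1 : ℝ, ∀ x ∈ C, ∀ (v : InfinitePlace k) (i : Fin N),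
        ‖(eqF B (KS k S) (star x) i).1 v‖ ≤ R1 := by
      have h1 : ∀ (v : InfinitePlace k) (i : Fin N), ∃ b : ℝ, ∀ x ∈ C,
          ‖(eqF B (KS k S) (star x) i).1 v‖ ≤ b := by
        intro v i
        obtain ⟨b, hb⟩ := (hC'.image (f := fun y : Fin N → KS k S => ‖(y i).1 v‖)
          (by fun_prop)).bddAbove
        exact ⟨b, fun x hx => hb ⟨_, ⟨x, hx, rfl⟩, rfl⟩⟩
      choose b hb using h1
      refine ⟨∑ v, ∑ i, |b v i|, fun x hx v i => (hb v i x hx).trans ((le_abs_self _).trans ?_)⟩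
      refine le_trans (Finset.single_le_sum (f := fun i => |b v i|)
        (fun _ _ => abs_nonneg _) (Finset.mem_univ i)) ?_
      exact Finset.single_le_sum (f := fun v => ∑ i, |b v i|)
        (fun _ _ => Finset.sum_nonneg fun _ _ => abs_nonneg _) (Finset.mem_univ v)
    obtain ⟨R2, hR2⟩ : ∃ R2 : ℝ, ∀ x ∈ C, ∀ (v : S) (i : Fin N),
        ‖(eqF B (KS k S) (star x) i).2 v‖ ≤ R2 := by
      have h1 : ∀ (v : S) (i : Fin N), ∃ b : ℝ, ∀ x ∈ C,
          ‖(eqF B (KS k S) (star x) i).2 v‖ ≤ b := by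
        intro v i
        obtain ⟨b, hb⟩ := (hC'.image (f := fun y : Fin N → KS k S => ‖(y i).2 v‖)
          (by fun_prop)).bddAbove
        exact ⟨b, fun x hx => hb ⟨_, ⟨x, hx, rfl⟩, rfl⟩⟩
      choose b hb using h1
      refine ⟨∑ v, ∑ i, |b v i|, fun x hx v i => (hb v i x hx).trans ((le_abs_self _).trans ?_)⟩
      refine le_trans (Finset.single_le_sum (f := fun i => |b v i|)
        (fun _ _ => abs_nonneg _) (Finset.mem_univ i)) ?_
      exact Finset.single_le_sum (f := fun v => ∑ i, |b v i|)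
        (fun _ _ => Finset.sum_nonneg fun _ _ => abs_nonneg _) (Finset.mem_univ v)
    refine ⟨max R1 (N * R2), fun a ha ha' => ?_⟩
    obtain ⟨w, hw, hw1, hw2, hxw⟩ := h (glueD B S 1 a)
      (by rw [glueD_star, glueD_mul, star_one, one_mul]; simp only [ha]; exact glueD_one B S)
      (by rw [glueD_star, glueD_mul, star_one, one_mul]; simp only [ha']; exact glueD_one B S)
    have hstar : star (glueD B S 1 a * (bcT B (KS k S)).j w) =
        glueD B S (star w) (fun v => star w * star (a v)) := by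
      rw [glueD_j, glueD_mul, glueD_star, one_mul]
      simp only [star_mul]
    have hsw : star w ∈ ordO B (OS k S) := hO.star_mem w hw
    refine ⟨star w, by rwa [star_star], by rwa [star_star], fun v hv i => ?_, fun φ i => ?_,
      fun v => ?_⟩
    · have h1 := hup _ hsw i v hv
      rw [← Even.valued_alg, ← Even.norm_le_one_iff, norm_adic, AbsoluteValue.map_mul] at h1
      exact (le_inv_mul_iff₀ ((AbsoluteValue.pos_iff _).2 hd.ne)).2 h1 |>.trans (by rw [mul_one])
    · have h1 := hR1 _ hxw (InfinitePlace.mk φ) i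
      rw [hstar, glueD_inf, norm_inf] at h1
      exact h1.trans (le_max_left _ _)
    · refine le_trans ?_ (le_max_right _ _)
      rw [Even.nm]
      have h2 : ∀ i : Fin N, plAbv (Sum.inl (v : HeightOneSpectrum (𝓞 k)))
          (B.repr (star w * star (a v)) i) ≤ R2 := by
        intro i
        have h1 := hR2 _ hxw v i
        rwa [hstar, glueD_fin, norm_adic] at h1
      calc _ ≤ ∑ i : Fin N, R2 := Finset.sum_le_sum fun i _ => h2 i
        _ = N * R2 := by simp

/-- The involution of a `Setting` is linear over `k`. -/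
theorem star_smul_of_setting {K : Type} [Field K] [StarRing K] [Algebra k K] [Algebra K D]
    [IsScalarTower k K D] {d : kˣ} {s : K} (hS : Setting k K D d s) (c : k) (x : D) :
    star (c • x) = c • star x := by
  have h1 : ∀ y : D, c • y = (algebraMap k K c) • y := fun y => by
    rw [algebraMap_smul]
  rw [h1, hS.star_smul, (hS.fix (algebraMap k K c)).2 ⟨c, rfl⟩, ← h1]

/-- The form used for strong approximation. -/
theorem coc_D {K : Type} [Field K] [StarRing K] [Algebra k K] [Algebra K D]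
    [IsScalarTower k K D] {d : kˣ} {s : K} (hS : Setting k K D d s)
    (v : HeightOneSpectrum (𝓞 k)) :
    ∃ M : HeightOneSpectrum (𝓞 k) → ℝ, {w | M w ≠ 1}.Finite ∧ (∀ w, 0 < M w) ∧
      ∃ R : ℝ, ∀ a : D, a * star a = 1 → ∃ lam : D, lam * star lam = 1 ∧
        (∀ w, w ≠ v → ∀ i, plAbv (Sum.inl w) (B.repr lam i) ≤ M w) ∧
        (∀ (φ : k →+* ℂ) (i : Fin N), ‖φ (B.repr lam i)‖ ≤ R) ∧
        Even.nm B (Sum.inl v) (lam * a⁻¹) ≤ R := by
  classical
  obtain ⟨M, hM, hM0, h⟩ := coc_S B (star_smul_of_setting hS)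
  obtain ⟨R, hR⟩ := h {v}
  refine ⟨M, hM, hM0, R, fun a ha => ?_⟩
  have hinv : star a = a⁻¹ := eq_inv_of_mul_eq_one_right ha
  have ha0 : a ≠ 0 := by
    rintro rfl
    rw [zero_mul] at ha
    exact zero_ne_one ha
  obtain ⟨lam, h1, h2, h3, h4, h5⟩ := hR (fun _ => a)
    (fun _ => by rw [hinv, inv_mul_cancel₀ ha0]) (fun _ => ha)
  refine ⟨lam, h2, fun w hw i => h3 w (by simpa using hw) i, h4, ?_⟩
  have := h5 ⟨v, by simp⟩
  rwa [hinv] at this

end Vale.Agent.P011.H544
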