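import Vale.Agent.P011.H544.TopBC

/-!
# The unitary group of `D` in the unitary group of the base change
-/

open Module TensorProduct

set_option linter.unusedSectionVars false

namespace Vale.Agent.P011.H544

variable {k D ι : Type*} [Field k] [DivisionRing D] [StarRing D] [Algebra k D] [StarLin k D]
  [Fintype ι] [DecidableEq ι] (B : Basis ι k D) (R : Type*) [CommRing R] [Algebra k R]
  [TopologicalSpace R]

/-- The embedding of `D` in the base change. -/
noncomputable def jD : D →+* BE B R := (bcT B R).j

theorem jD_star (x : D) : jD B R (star x) = star (jD B R x) := (bcT B R).j_star x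

/-- coordinates of the image of an element of `D` -/
theorem eqF_jD (x : D) (i : ι) : eqF B R (jD B R x) i = algebraMap k R (B.repr x i) := by
  have h : (B.baseChange R).repr ((1 : R) ⊗ₜ[k] x) i = algebraMap k R (B.repr x i) := by
    rw [Basis.baseChange_repr_tmul, Algebra.smul_def, mul_one]
  exact h

/-- Unitary elements of `D` as unitary elements of the base change, for any subgroup of the units
consisting of unitary elements. -/
noncomputable def iotaU (U : Subgroup Dˣ) (hU : ∀ g ∈ U, (g : D) * star (g : D) = 1) :
    U →* unitary (BE B R) where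
  toFun g := ⟨jD B R (((g : Dˣ) : D)), by
    have h1 : (((g : Dˣ) : D)) * star (((g : Dˣ) : D)) = 1 := hU g g.2
    have h2 : star (((g : Dˣ) : D)) * (((g : Dˣ) : D)) = 1 := by
      have h3 : star (((g : Dˣ) : D)) = ((((g : Dˣ))⁻¹ : Dˣ) : D) := by
        rw [← Units.mul_right_inj (g : Dˣ), h1, Units.mul_inv]
      rw [h3, Units.inv_mul]
    refine Unitary.mem_iff.2 ⟨?_, ?_⟩
    · rw [← jD_star, ← map_mul, h2, map_one]
    · rw [← jD_star, ← map_mul, h1, map_one]⟩
  map_one' := Subtype.ext (by
    change jD B R (((1 : Dˣ)) : D) = 1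
    rw [Units.val_one, map_one])
  map_mul' g h := Subtype.ext (by
    change jD B R (((g * h : U) : Dˣ) : D) = jD B R ((g : Dˣ) : D) * jD B R ((h : Dˣ) : D)
    rw [Subgroup.coe_mul, Units.val_mul, map_mul])

theorem iotaU_val (U : Subgroup Dˣ) (hU : ∀ g ∈ U, (g : D) * star (g : D) = 1) (g : U) :
    ((iotaU B R U hU g : unitary (BE B R)) : BE B R) = jD B R ((g : Dˣ) : D) := rfl

end Vale.Agent.P011.H544
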