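import Vale.Agent.P011.H182.Nma
import Vale.Agent.P011.H544.CocD
import Vale.Agent.P011.H544.IotaU

/-!
# Elements close to one and integral elements preserve the lattice
-/

open NumberField IsDedekindDomain Module

set_option linter.unusedSectionVars false

namespace Vale.Agent.P011.H544

open Vale.Agent.P011.Arith Vale.Agent.P011.Even Vale.Agent.P011.H182

section one

variable {k D : Type} [Field k] [DivisionRing D] [StarRing D] [Algebra k D]
  {N : ℕ} (B : Basis (Fin N) k D) (a : AbsoluteValue k ℝ)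

/-- The element and its star preserve the integral elements. -/
def Pres (g : D) : Prop := (∀ y, Ig B a y → Ig B a (g * y)) ∧ ∀ y, Ig B a y → Ig B a (star g * y)

variable {B a}

/-- Integral elements at a good place. -/
theorem pres_of_gd (h : Gd B a) (hst : ∀ (c : k) (x : D), star (c • x) = c • star x) {g : D}
    (hg : Ig B a g) : Pres B a g :=
  ⟨fun _ hy => h.mul' hg hy, fun _ hy => h.mul' (h.star hst hg) hy⟩

variable (B a) in
/-- Elements close to one, any nonarchimedean absolute value. -/
theorem exists_near (ha : IsNonarchimedean a)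
    (hst : ∀ (c : k) (x : D), star (c • x) = c • star x) :
    ∃ η : ℝ, 0 < η ∧ ∀ g : D, na B a (g - 1) ≤ η → Pres B a g := by
  obtain ⟨C, hC, hm, hs⟩ := na_const B a hst
  have hC0 : 0 < C := by linarith
  have hN : (0 : ℝ) ≤ N := Nat.cast_nonneg _
  have hpos : 0 < C * C * (N + 1) := by positivity
  refine ⟨(C * C * (N + 1))⁻¹, inv_pos.2 hpos, fun g hg => ?_⟩
  have key : ∀ z : D, na B a (z - 1) ≤ C * (C * C * (N + 1))⁻¹ → ∀ y, Ig B a y →
      Ig B a (z * y) := by
    intro z hz y hy
    have e : z * y = (z - 1) * y + y := by rw [sub_mul, one_mul, sub_add_cancel]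
    rw [e]
    refine Gd.add ha (ig_of_na ?_) hy
    refine (hm _ _).trans ?_
    have hyN : na B a y ≤ N := by
      refine (na_le_of_coord B a hy).trans ?_
      rw [mul_one]
    calc C * na B a (z - 1) * na B a y
        ≤ C * (C * (C * C * (N + 1))⁻¹) * N := by
          refine mul_le_mul (mul_le_mul_of_nonneg_left hz hC0.le) hyN (na_nonneg _ _ _)
            (by positivity)
      _ = (C * C * N) * (C * C * (N + 1))⁻¹ := by ring
      _ ≤ 1 := by
          rw [← div_eq_mul_inv]
          refine (div_le_one hpos).2 ?_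
          nlinarith
  refine ⟨key g (hg.trans ?_), key (star g) ?_⟩
  · exact le_mul_of_one_le_left (inv_nonneg.2 hpos.le) hC
  · have e : star g - 1 = star (g - 1) := by rw [star_sub, star_one]
    rw [e]
    exact (hs _).trans (mul_le_mul_of_nonneg_left hg hC0.le)

end one

variable {k D : Type} [Field k] [NumberField k] [DivisionRing D] [StarRing D] [Algebra k D]
  {N : ℕ} (B : Basis (Fin N) k D)

theorem inL_iff {S : Finset (HeightOneSpectrum (𝓞 k))} {y : D} :
    InL B (OS k S) y ↔ ∀ v, v ∉ S → Ig B (plAbv (Sum.inl v)) y := by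
  constructor
  · intro h v hv i
    exact (plAbv_le_one v _).2 (h i v hv)
  · intro h i v hv
    exact (plAbv_le_one v _).1 (h v hv i)

/-- Local to global. -/
theorem mem_ordO_of_pres {S : Finset (HeightOneSpectrum (𝓞 k))} {g : D}
    (h : ∀ v, v ∉ S → Pres B (plAbv (Sum.inl v)) g) : g ∈ ordO B (OS k S) := by
  refine ⟨fun y hy => ?_, fun y hy => ?_⟩
  · rw [inL_iff] at hy ⊢
    exact fun v hv => (h v hv).1 y (hy v hv)
  · rw [inL_iff] at hy ⊢
    exact fun v hv => (h v hv).2 y (hy v hv)

/-- **The levels are integral.** -/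
theorem exists_lev_ord (hst : ∀ (c : k) (x : D), star (c • x) = c • star x) :
    ∃ ε₀ : ℝ, 0 < ε₀ ∧ ∀ (S : Finset (HeightOneSpectrum (𝓞 k)))
      (T : Set (HeightOneSpectrum (𝓞 k))) (ε : ℝ) (g : D), ε ≤ ε₀ →
      {v | ¬ Gd B (plAbv (Sum.inl v))} ⊆ T →
      (∀ w ∈ T, w ∉ S → na B (plAbv (Sum.inl w)) (g - 1) < ε) →
      (∀ w ∉ T, w ∉ S → Ig B (plAbv (Sum.inl w)) g) → g ∈ ordO B (OS k S) := by
  classical
  choose η hη hηp using fun v : HeightOneSpectrum (𝓞 k) =>
    exists_near B (plAbv (Sum.inl v)) (isNonarch v) hst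
  have hfin := finite_bad B
  obtain ⟨ε₁, hε₁, h1⟩ : ∃ ε₁ : ℝ, 0 < ε₁ ∧ ∀ v ∈ hfin.toFinset, ε₁ ≤ η v := by
    generalize hfin.toFinset = s
    induction s using Finset.induction_on with
    | empty => exact ⟨1, one_pos, by simp⟩
    | insert b s hb ih =>
      obtain ⟨e, he, h⟩ := ih
      refine ⟨min e (η b), lt_min he (hη b), fun v hv => ?_⟩
      rcases Finset.mem_insert.1 hv with rfl | hv
      · exact min_le_right _ _
      · exact (min_le_left _ _).trans (h v hv)
  refine ⟨min ε₁ 1, lt_min hε₁ one_pos, fun S T ε g hε hT hn hi => ?_⟩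
  refine mem_ordO_of_pres B fun v hv => ?_
  by_cases hb : Gd B (plAbv (Sum.inl v))
  · refine pres_of_gd hb hst ?_
    by_cases hvT : v ∈ T
    · exact hb.of_near ((hn v hvT hv).le.trans (hε.trans (min_le_right _ _)))
    · exact hi v hvT hv
  · refine hηp v g ((hn v (hT hb) hv).le.trans (hε.trans ((min_le_left _ _).trans (h1 v ?_))))
    simpa using hb

variable [StarLin k D] {S : Finset (HeightOneSpectrum (𝓞 k))}

/-- coordinates at a finite place of `S` -/
theorem coord_fin (x : D) (v : S) (i : Fin N) :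
    ‖(eqF B (KS k S) (jD B (KS k S) x) i).2 v‖ =
      plAbv (Sum.inl (v : HeightOneSpectrum (𝓞 k))) (B.repr x i) := by
  rw [eqF_jD, ← norm_adic]
  rfl

omit [NumberField k] [DivisionRing D] [StarRing D] [Algebra k D] [StarLin k D] in
theorem norm_infv (v : InfinitePlace k) (x : k) :
    ‖algebraMap k v.Completion x‖ = ‖v.embedding x‖ := by
  rw [← norm_ext]
  have h5 : InfinitePlace.Completion.extensionEmbedding v (algebraMap k v.Completion x) =
      v.embedding x := InfinitePlace.Completion.extensionEmbedding_coe _ _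
  rw [h5]

/-- coordinates at an infinite place -/
theorem coord_inf (x : D) (v : InfinitePlace k) (i : Fin N) :
    ‖(eqF B (KS k S) (jD B (KS k S) x) i).1 v‖ = ‖v.embedding (B.repr x i)‖ := by
  rw [eqF_jD, ← norm_infv]
  rfl

end Vale.Agent.P011.H544
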