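import Vale.Agent.P011.H976.NFLev
import Vale.Agent.P011.H544.LevOrd

/-!
# From the levels to neighbourhoods of one in the unitary group of `k_S ⊗ D`

An element of a level without condition at `q₀` is `S`-integral, and its components at the places
of `S` different from `q₀` are close to one.
-/

open NumberField IsDedekindDomain Module Filter Topology

set_option linter.unusedSectionVars false

namespace Vale.Agent.P011.H544

open Vale.Agent.P011.Arith Vale.Agent.P011.Even Vale.Agent.P011.H182 Vale.Agent.P011.H976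

variable {k K D Ω : Type} [Field k] [NumberField k] [Field K] [DivisionRing D] [StarRing D]
  [Algebra k D] [Algebra K D] [Field Ω] [Algebra K Ω] {n N : ℕ}
  (f : D →ₐ[K] Matrix (Fin n) (Fin n) Ω) (B : Basis (Fin N) k D)

section det

/-- An element of reduced norm one has determinant one in every splitting. -/
theorem det_split [CharZero K] [FiniteDimensional K D] [Algebra.IsCentral K D] (hn : 0 < n)
    (hdeg : finrank K D = n ^ 2) {F : Type} [Field F] (φ : K →+* F)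
    (f₀ : D →+* Matrix (Fin n) (Fin n) F)
    (hf₀ : ∀ c : K, f₀ (algebraMap K D c) = algebraMap F _ (φ c)) {x : D}
    (hx : (f x).det = 1) : (f₀ x).det = 1 := by
  let _ : Algebra K F := φ.toAlgebra
  let g : D →ₐ[K] Matrix (Fin n) (Fin n) F :=
    { f₀ with
      commutes' := fun c => by
        change f₀ (algebraMap K D c) = _
        rw [hf₀]
        rfl }
  have h1 := Even.det_compare hn hdeg f g x (ν := 1) (by rw [hx, map_one])
  rw [map_one] at h1
  exact h1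

end det

/-- **Levels and the order.** -/
theorem exists_lv_ord (hst : ∀ (c : k) (x : D), star (c • x) = c • star x) :
    ∃ ε₀ : ℝ, 0 < ε₀ ∧ ∀ (S : Finset (HeightOneSpectrum (𝓞 k)))
      (S' T : Set (HeightOneSpectrum (𝓞 k))) (ε : ℝ) (g : D), S' ⊆ S → ε ≤ ε₀ → Bad B ⊆ T →
      g ∈ Lv B S' T ε → g ∈ ordO B (OS k S) := by
  obtain ⟨ε₀, hε₀, h⟩ := exists_lev_ord B hst
  refine ⟨ε₀, hε₀, fun S S' T ε g hS hε hT hg => ?_⟩
  refine h S T ε g hε hT (fun w hw hw' => hg.1 w hw fun h' => hw' (hS h'))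
    (fun w hw hw' => hg.2.1 w hw fun h' => hw' (hS h'))

variable [StarLin k D] {S : Finset (HeightOneSpectrum (𝓞 k))}

/-- The components outside `q₀` are close to one. -/
theorem lv_off (q₀ : HeightOneSpectrum (𝓞 k)) {T : Set (HeightOneSpectrum (𝓞 k))} {ε : ℝ} {g : D}
    (hT : ∀ v ∈ S, v ≠ q₀ → v ∈ T) (hg : g ∈ Lv B {q₀} T ε) :
    (∀ (v : InfinitePlace k) (i : Fin N),
      ‖(eqF B (KS k S) (jD B (KS k S) g - 1) i).1 v‖ < ε) ∧
    ∀ v : S, (v : HeightOneSpectrum (𝓞 k)) ≠ q₀ → ∀ i : Fin N,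
      ‖(eqF B (KS k S) (jD B (KS k S) g - 1) i).2 v‖ < ε := by
  have e : jD B (KS k S) g - 1 = jD B (KS k S) (g - 1) := by rw [map_sub, map_one]
  rw [e]
  refine ⟨fun v i => ?_, fun v hv i => ?_⟩
  · rw [coord_inf]
    exact (coord_le_na B (cAbv v.embedding) (g - 1) i).trans_lt (hg.2.2 v.embedding)
  · rw [coord_fin]
    exact (coord_le_na B _ (g - 1) i).trans_lt (hg.1 v (hT v v.2 hv) hv)

/-- The statement used for the topology of `U(k_S)`: an element whose components outside `q₀` are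
close to one and whose component at `q₀` is `f₀` of determinant one is close to the image of
`SL_n`. -/
def OffNear (q₀ : HeightOneSpectrum (𝓞 k)) {G₀ : Type*} [Group G₀]
    (j : G₀ →* unitary (BE B (KS k S))) (P : unitary (BE B (KS k S)) → Prop) : Prop :=
  ∀ O ∈ 𝓝 (1 : unitary (BE B (KS k S))), ∃ η : ℝ, 0 < η ∧ ∀ x : unitary (BE B (KS k S)),
    (∀ (v : InfinitePlace k) (i : Fin N),
      ‖(eqF B (KS k S) ((x : BE B (KS k S)) - 1) i).1 v‖ < η) →
    (∀ v : S, (v : HeightOneSpectrum (𝓞 k)) ≠ q₀ → ∀ i : Fin N,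
      ‖(eqF B (KS k S) ((x : BE B (KS k S)) - 1) i).2 v‖ < η) →
    P x → ∃ z : G₀, x * (j z)⁻¹ ∈ O

/-- **BRIDGE.** -/
theorem bridge (q₀ : HeightOneSpectrum (𝓞 k)) (hq₀ : q₀ ∈ S) {G₀ : Type*} [Group G₀]
    (j : G₀ →* unitary (BE B (KS k S))) (P : unitary (BE B (KS k S)) → Prop)
    (hoff : OffNear B q₀ j P)
    (hP : ∀ g : UD D, g ∈ GD f → P (iotaU B (KS k S) (UD D) (fun _ h => h) g))
    {O : Set (unitary (BE B (KS k S)))} (hO : O ∈ 𝓝 (1 : unitary (BE B (KS k S)))) :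
    ∃ L ∈ lvF f B {q₀}, ∀ g ∈ L, g ∈ GD f ∧ UL (ordO B (OS k S)) ((g : Dˣ) : D) ∧
      ∃ z : G₀, iotaU B (KS k S) (UD D) (fun _ h => h) g * (j z)⁻¹ ∈ O := by
  obtain ⟨η, hη, h⟩ := hoff O hO
  obtain ⟨ε₀, hε₀, h₀⟩ := exists_lv_ord B (fun c x => StarLin.star_smul' (k := k) (A := D) c x)
  set T : Set (HeightOneSpectrum (𝓞 k)) := Bad B ∪ S with hTd
  have hT : T.Finite := (finite_Bad B).union S.finite_toSet
  refine ⟨{g | ((g : Dˣ) : D) ∈ Lv B {q₀} T (min η ε₀) ∧ g ∈ GD f},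
    ⟨T, hT, Set.subset_union_left, min η ε₀, lt_min hη hε₀, fun g h1 h2 => ⟨h1, h2⟩⟩, ?_⟩
  rintro g ⟨hg, hgG⟩
  have hgS : ((g : Dˣ) : D) ∈ ordO B (OS k S) :=
    h₀ S {q₀} T _ _ (by simpa using hq₀) (min_le_right _ _) Set.subset_union_left hg
  have hg1 : ((g : Dˣ) : D) * star ((g : Dˣ) : D) = 1 := g.2
  have hg2 : star ((g : Dˣ) : D) * ((g : Dˣ) : D) = 1 := by
    have h3 : star (((g : Dˣ) : D)) = ((((g : Dˣ))⁻¹ : Dˣ) : D) := by
      rw [← Units.mul_right_inj (g : Dˣ), hg1, Units.mul_inv]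
    rw [h3, Units.inv_mul]
  refine ⟨hgG, ⟨hgS, hg2, hg1⟩, ?_⟩
  obtain ⟨h1, h2⟩ := lv_off B q₀ (S := S) (T := T) (fun v hv _ => Or.inr hv) hg
  refine h _ (fun v i => ?_) (fun v hv i => ?_) (hP g hgG)
  · exact (h1 v i).trans_le (min_le_left _ _)
  · exact (h2 v hv i).trans_le (min_le_left _ _)

/-- **The elements needed for the conjugation Mautner theorem**: every `r` in the target group is
the value of an `S`-integral element which is arbitrarily close to the image of `SL_n`. -/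
theorem exists_gam (q₀ : HeightOneSpectrum (𝓞 k)) (hq₀ : q₀ ∈ S) {G₀ : Type*} [Group G₀]
    (j : G₀ →* unitary (BE B (KS k S))) (P : unitary (BE B (KS k S)) → Prop)
    (hoff : OffNear B q₀ j P)
    (hP : ∀ g : UD D, g ∈ GD f → P (iotaU B (KS k S) (UD D) (fun _ h => h) g))
    {E : Type*} [Group E] {c : UD D →* E} {R : Subgroup E} (hT : Target0 (lvF f B {q₀}) c R)
    {O : Set (unitary (BE B (KS k S)))} (hO : O ∈ 𝓝 (1 : unitary (BE B (KS k S)))) {r : E}
    (hr : r ∈ R) :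
    ∃ g : UD D, c g = r ∧ g ∈ GD f ∧ UL (ordO B (OS k S)) ((g : Dˣ) : D) ∧
      ∃ z : G₀, iotaU B (KS k S) (UD D) (fun _ h => h) g * (j z)⁻¹ ∈ O := by
  obtain ⟨L, hL, h⟩ := bridge f B q₀ hq₀ j P hoff hP hO
  obtain ⟨g, hg, hgr⟩ := hT.full L hL r hr
  exact ⟨g, hgr, h g hg⟩

end Vale.Agent.P011.H544
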