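import Vale.Agent.P011.H544.DS

/-!
# The base change `R ⊗ A` as a topological ring with involution
-/

open Module TensorProduct

namespace Vale.Agent.P011.H544

/-- The involution is linear over `k`. -/
class StarLin (k A : Type*) [Field k] [DivisionRing A] [StarRing A] [Algebra k A] : Prop where
  star_smul' : ∀ (c : k) (x : A), star (c • x) = c • star x

section

variable {k A ι : Type*} [Field k] [DivisionRing A] [StarRing A] [Algebra k A]

/-- The base change of `A` to `R`, with the topology given by the basis `a`. -/
def BE (_a : Basis ι k A) (R : Type*) [CommRing R] [Algebra k R] : Type _ := R ⊗[k] A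

variable (a : Basis ι k A) (R : Type*) [CommRing R] [Algebra k R]

noncomputable instance : Ring (BE a R) := inferInstanceAs (Ring (R ⊗[k] A))
noncomputable instance : Algebra R (BE a R) := inferInstanceAs (Algebra R (R ⊗[k] A))

/-- star as a linear map -/
def starA (k A : Type*) [Field k] [DivisionRing A] [StarRing A] [Algebra k A] [StarLin k A] :
    A →ₗ[k] A where
  toFun := star
  map_add' := star_add
  map_smul' c x := StarLin.star_smul' c x

/-- star on the base change -/
noncomputable def starT [StarLin k A] : (R ⊗[k] A) →ₗ[R] (R ⊗[k] A) :=
  (starA k A).baseChange R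

theorem starT_tmul [StarLin k A] (r : R) (x : A) : starT (k := k) R (r ⊗ₜ[k] x) = r ⊗ₜ star x := rfl

theorem starT_starT [StarLin k A] (x : R ⊗[k] A) : starT (k := k) R (starT R x) = x := by
  induction x using TensorProduct.induction_on with
  | zero => simp
  | tmul r x => rw [starT_tmul, starT_tmul, star_star]
  | add x y hx hy => rw [map_add, map_add, hx, hy]

theorem starT_mul [StarLin k A] (x y : R ⊗[k] A) :
    starT (k := k) R (x * y) = starT R y * starT R x := by
  induction x using TensorProduct.induction_on with
  | zero => simp
  | add x x' hx hx' => rw [add_mul, map_add, map_add, mul_add, hx, hx']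
  | tmul r x =>
    induction y using TensorProduct.induction_on with
    | zero => simp
    | add y y' hy hy' => rw [mul_add, map_add, map_add, add_mul, hy, hy']
    | tmul s y =>
      rw [Algebra.TensorProduct.tmul_mul_tmul, starT_tmul, starT_tmul, starT_tmul,
        Algebra.TensorProduct.tmul_mul_tmul, star_mul, mul_comm]

noncomputable instance [StarLin k A] : StarRing (BE a R) where
  star := fun x => starT (k := k) (A := A) R x
  star_involutive := starT_starT (k := k) (A := A) R
  star_mul := starT_mul (k := k) (A := A) R
  star_add := fun x y => map_add (starT (k := k) (A := A) R) x y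

variable [Fintype ι]

/-- the coordinates -/
noncomputable def eqF : BE a R ≃ₗ[R] (ι → R) := (a.baseChange R).equivFun

variable [TopologicalSpace R]

noncomputable instance : TopologicalSpace (BE a R) :=
  TopologicalSpace.induced (fun x => eqF a R x) inferInstance

omit [StarRing A] in
theorem cont_eqF : Continuous (eqF a R) := continuous_induced_dom

omit [StarRing A] in
theorem cont_into {X : Type*} [TopologicalSpace X] (f : X → BE a R)
    (h : Continuous fun x => eqF a R (f x)) : Continuous f :=
  continuous_induced_rng.2 h

instance [IsTopologicalRing R] : IsTopologicalRing (BE a R) where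
  continuous_add := by
    refine cont_into a R _ ?_
    simp only [map_add]
    exact ((cont_eqF a R).comp continuous_fst).add ((cont_eqF a R).comp continuous_snd)
  continuous_neg := by
    refine cont_into a R _ ?_
    simp only [map_neg]
    exact (cont_eqF a R).neg
  continuous_mul := by
    classical
    refine cont_into a R _ ?_
    have hx : ∀ x : BE a R, x = ∑ i, eqF a R x i • (eqF a R).symm (Pi.single i 1) := by
      intro x
      apply (eqF a R).injective
      rw [map_sum]
      funext l
      rw [Finset.sum_apply, Finset.sum_eq_single l]
      · simp
      · intro i _ hi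
        simp [hi.symm]
      · simp
    have h : ∀ p : BE a R × BE a R, eqF a R (p.1 * p.2) =
        ∑ i, ∑ l, (eqF a R p.1 i * eqF a R p.2 l) •
          eqF a R ((eqF a R).symm (Pi.single i 1) * (eqF a R).symm (Pi.single l 1)) := by
      intro p
      conv_lhs => rw [hx p.1, hx p.2]
      rw [Finset.sum_mul_sum, map_sum]
      refine Finset.sum_congr rfl fun i _ => ?_
      rw [map_sum]
      refine Finset.sum_congr rfl fun l _ => ?_
      rw [smul_mul_smul_comm, map_smul]
    simp only [h]
    refine continuous_finsetSum _ fun i _ => continuous_finsetSum _ fun l _ => ?_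
    have h1 : Continuous fun p : BE a R × BE a R => eqF a R p.1 i :=
      (continuous_apply i).comp ((cont_eqF a R).comp continuous_fst)
    have h2 : Continuous fun p : BE a R × BE a R => eqF a R p.2 l :=
      (continuous_apply l).comp ((cont_eqF a R).comp continuous_snd)
    exact (h1.mul h2).smul continuous_const

/-- The instance of `BC`. -/
noncomputable def bcT [DecidableEq ι] [StarLin k A] : BC k R A (BE a R) ι where
  a := a
  φ := { eqF a R with
    continuous_toFun := cont_eqF a R
    continuous_invFun := by
      have h : Continuous (fun x : ι → R => (eqF a R).symm x) := by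
        refine cont_into (X := ι → R) a R _ ?_
        simp only [LinearEquiv.apply_symm_apply]
        exact continuous_id
      exact h }
  j := (Algebra.TensorProduct.includeRight : A →ₐ[k] R ⊗[k] A).toRingHom
  j_smul c x := by
    change (1 : R) ⊗ₜ[k] (c • x) = (algebraMap k R c) • ((1 : R) ⊗ₜ[k] x)
    rw [TensorProduct.smul_tmul', ← TensorProduct.smul_tmul, algebraMap_smul]
  j_star x := rfl
  φ_j i := by
    change (a.baseChange R).equivFun ((1 : R) ⊗ₜ[k] a i) = _
    rw [← Basis.baseChange_apply]
    funext l
    rw [Basis.equivFun_self, Pi.single_apply]
    simp [eq_comm]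
  star_smul r x := map_smul (starT (k := k) (A := A) R) r x

end

end Vale.Agent.P011.H544
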