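import Mathlib

/-!
# COCO: cocompactness of the unitary group of an order (abstract form)

`E` locally compact ring with involution, `Lam` a discrete cocompact star-stable subring in which
every nonzero element is a unit of `E`.  Then the unitary group of `Lam` is cocompact in the
unitary group of `E`.  (Minkowski + finiteness of left ideals between `Lam h` and `Lam`.)
-/

open MeasureTheory Set
open scoped Pointwise

namespace Vale.Agent.P011.H544

/-- Blichfeldt for a compact covering set instead of a fundamental domain. -/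
theorem blich {E : Type*} [AddCommGroup E] [TopologicalSpace E] [IsTopologicalAddGroup E]
    [T2Space E] [MeasurableSpace E] [BorelSpace E] (μ : Measure E) [μ.IsAddLeftInvariant]
    (L : AddSubgroup E) [Countable L] {K : Set E} (hK : IsCompact K)
    (hcov : ∀ x : E, ∃ a ∈ L, x - a ∈ K) {S : Set E} (hS : MeasurableSet S) (h : μ K < μ S) :
    ∃ a ∈ L, a ≠ 0 ∧ ∃ s ∈ S, ∃ t ∈ S, s - t = a := by
  classical
  by_contra hcon
  push Not at hcon
  obtain ⟨e, he⟩ := exists_surjective_nat L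
  set A : ℕ → Set E := fun n => (fun y : E => y + (-(e n : E))) ⁻¹' K with hA
  have hAm : ∀ n, MeasurableSet (A n) := fun n =>
    (hK.isClosed.preimage (continuous_add_const _)).measurableSet
  set D : ℕ → Set E := disjointed A with hD
  have hDm : ∀ n, MeasurableSet (D n) := fun n => MeasurableSet.disjointed hAm n
  have hDsub : ∀ n, D n ⊆ A n := fun n => disjointed_subset A n
  have hDdis : Pairwise (Function.onFun Disjoint D) := disjoint_disjointed A
  have hDun : ⋃ n, D n = univ := by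
    rw [hD, iUnion_disjointed]
    refine eq_univ_of_forall fun x => ?_
    obtain ⟨a, ha, hx⟩ := hcov x
    obtain ⟨n, hn⟩ := he ⟨a, ha⟩
    refine mem_iUnion.2 ⟨n, ?_⟩
    simp only [hA, mem_preimage, hn]
    simpa [sub_eq_add_neg] using hx
  set T : ℕ → Set E := fun n => (fun y : E => y + (e n : E)) ⁻¹' (S ∩ D n) with hT
  have hTm : ∀ n, MeasurableSet (T n) := fun n =>
    (continuous_add_const (e n : E)).measurable (hS.inter (hDm n))
  have hTK : ∀ n, T n ⊆ K := by
    intro n y hy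
    have h1 : y + (e n : E) ∈ A n := hDsub n hy.2
    simpa [hA] using h1
  have hTdis : Pairwise (Function.onFun Disjoint T) := by
    intro n m hnm
    rw [Function.onFun, Set.disjoint_left]
    intro y hyn hym
    have h1 : y + (e n : E) ∈ S ∩ D n := hyn
    have h2 : y + (e m : E) ∈ S ∩ D m := hym
    by_cases h0 : (e n : E) - (e m : E) = 0
    · have h3 : (e n : E) = (e m : E) := sub_eq_zero.1 h0
      rw [h3] at h1
      exact (Set.disjoint_left.1 (hDdis hnm)) h1.2 h2.2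
    · exact hcon _ (L.sub_mem (e n).2 (e m).2) h0 _ h1.1 _ h2.1 (by abel)
  have hmeas : ∀ n, μ (T n) = μ (S ∩ D n) := fun n => by
    have : T n = (fun y : E => (e n : E) + y) ⁻¹' (S ∩ D n) := by
      simp only [hT]
      congr 1
      funext y; rw [add_comm]
    rw [this]
    exact measure_preimage_add μ (e n : E) _
  have h1 : μ S = ∑' n, μ (S ∩ D n) := by
    rw [← measure_iUnion]
    · rw [← inter_iUnion, hDun, inter_univ]
    · intro n m hnm
      exact (hDdis hnm).mono inter_subset_right inter_subset_right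
    · exact fun n => hS.inter (hDm n)
  have h2 : μ (⋃ n, T n) = ∑' n, μ (T n) := measure_iUnion hTdis hTm
  have h3 : μ S ≤ μ K := by
    rw [h1, ← tsum_congr hmeas, ← h2]
    exact measure_mono (iUnion_subset hTK)
  exact absurd h (not_lt.2 h3)

section main

variable {E : Type*} [Ring E] [StarRing E] [TopologicalSpace E] [IsTopologicalRing E]
  [ContinuousStar E] [T2Space E]

omit [StarRing E] [ContinuousStar E] in
/-- Minkowski: a compact set `C0` such that every element `x` whose left multiplication preserves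
the measure moves some nonzero element of the lattice into `C0`. -/
theorem mink [LocallyCompactSpace E] [NoncompactSpace E] [MeasurableSpace E] [BorelSpace E]
    (μ : Measure E) [μ.IsAddHaarMeasure] [μ.Regular]
    (L : AddSubgroup E) [Countable L] {K : Set E} (hK : IsCompact K)
    (hcov : ∀ x : E, ∃ a ∈ L, x - a ∈ K) :
    ∃ C0 : Set E, IsCompact C0 ∧ ∀ x y : E, y * x = 1 → x * y = 1 →
      (∀ s : Set E, IsCompact s → μ ((fun z => x * z) ⁻¹' s) = μ s) →
      ∃ a ∈ L, a ≠ 0 ∧ x * a ∈ C0 := by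
  have hfin : μ K < μ univ := by
    rw [measure_univ_of_isAddLeftInvariant]
    exact hK.measure_lt_top
  obtain ⟨B, -, hB, hKB⟩ := isOpen_univ.exists_lt_isCompact hfin
  refine ⟨(fun p : E × E => p.1 - p.2) '' (B ×ˢ B), (hB.prod hB).image (by fun_prop),
    fun x y hyx hxy hx => ?_⟩
  have hS : MeasurableSet ((fun z => x * z) ⁻¹' B) :=
    (hB.isClosed.preimage (continuous_const_mul x)).measurableSet
  obtain ⟨a, ha, ha0, s, hs, t, ht, hst⟩ := blich μ L hK hcov hS (by rw [hx B hB]; exact hKB)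
  refine ⟨a, ha, ha0, ?_⟩
  rw [← hst, mul_sub]
  exact ⟨(x * s, x * t), ⟨hs, ht⟩, rfl⟩

/-- The hypotheses on an order `Lam` in a topological ring with involution `E`. -/
structure Lat (Lam : Subring E) : Prop where
  star_mem : ∀ a ∈ Lam, star a ∈ Lam
  disc : ∀ K : Set E, IsCompact K → (K ∩ (Lam : Set E)).Finite
  coc : ∃ K : Set E, IsCompact K ∧ ∀ x : E, ∃ a ∈ Lam, x - a ∈ K
  div : ∀ a ∈ Lam, a ≠ 0 → IsUnit a

omit [ContinuousStar E] [T2Space E] in
/-- For a unit `h` in the order, `Lam = Z + Lam h` with `Z` finite. -/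
theorem Lat.finite_mod {Lam : Subring E} (H : Lat Lam) {h : E} (hh : h ∈ Lam) (h0 : h ≠ 0) :
    ∃ Z : Set E, Z.Finite ∧ Z ⊆ (Lam : Set E) ∧ ∀ l ∈ Lam, ∃ z ∈ Z, ∃ m ∈ Lam, l = z + m * h := by
  obtain ⟨K, hK, hcov⟩ := H.coc
  obtain ⟨u, hu⟩ := H.div h hh h0
  refine ⟨((fun z => z * h) '' K) ∩ (Lam : Set E),
    H.disc _ (hK.image (continuous_mul_const h)), inter_subset_right, fun l hl => ?_⟩
  obtain ⟨m, hm, hk⟩ := hcov (l * ↑u⁻¹)
  refine ⟨l - m * h, ⟨⟨_, hk, ?_⟩, Lam.sub_mem hl (Lam.mul_mem hm hh)⟩, m, hm, by abel⟩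
  rw [← hu]
  simp [sub_mul]

omit [ContinuousStar E] [T2Space E] in
/-- Finiteness: among the `a` in the order with `star a * a` in a finite set, there are finitely
many classes modulo left multiplication by unitary elements of the order. -/
theorem Lat.finite_reps {Lam : Subring E} (H : Lat Lam) {F : Set E} (hF : F.Finite) :
    ∃ R : Set E, R.Finite ∧ (∀ r ∈ R, r ∈ Lam ∧ r ≠ 0) ∧
      ∀ a ∈ Lam, a ≠ 0 → star a * a ∈ F →
        ∃ r ∈ R, ∃ w ∈ Lam, star w * w = 1 ∧ w * star w = 1 ∧ a = w * r := by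
  classical
  -- for every `h` in `F` a finite set `Z h`
  have hZ : ∀ h : E, ∃ Z : Set E, Z.Finite ∧ (h ∈ Lam → h ≠ 0 →
      ∀ l ∈ Lam, ∃ z ∈ Z, ∃ m ∈ Lam, l = z + m * h) := by
    intro h
    by_cases h1 : h ∈ Lam ∧ h ≠ 0
    · obtain ⟨Z, hZ, -, h2⟩ := H.finite_mod h1.1 h1.2
      exact ⟨Z, hZ, fun _ _ => h2⟩
    · exact ⟨∅, finite_empty, fun h2 h3 => absurd ⟨h2, h3⟩ h1⟩
  choose Z hZf hZ using hZ
  set W : Set E := ⋃ h ∈ F, Z h with hW
  have hWf : W.Finite := hF.biUnion fun h _ => hZf h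
  -- the invariant
  set good : Set E := {a | a ∈ Lam ∧ a ≠ 0 ∧ star a * a ∈ F} with hgood
  let Φ : E → E × Set E := fun a => (star a * a, {z | z ∈ W ∧ ∃ m ∈ Lam, z = m * a})
  have hΦ : (Φ '' good).Finite := by
    refine (hF.prod hWf.finite_subsets).subset ?_
    rintro _ ⟨a, ha, rfl⟩
    exact ⟨ha.2.2, fun z hz => hz.1⟩
  obtain ⟨R, hRsub, hRf, hRim⟩ : ∃ R : Set E, R ⊆ good ∧ R.Finite ∧ Φ '' R = Φ '' good := by
    obtain ⟨R, hRs, hRb⟩ := Set.exists_subset_bijOn good Φ
    refine ⟨R, hRs, ?_, hRb.image_eq⟩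
    exact Set.Finite.of_finite_image (hRb.image_eq ▸ hΦ) hRb.injOn
  refine ⟨R, hRf, fun r hr => ⟨(hRsub hr).1, (hRsub hr).2.1⟩, fun a ha ha0 haF => ?_⟩
  have hag : a ∈ good := ⟨ha, ha0, haF⟩
  obtain ⟨r, hr, hra⟩ : Φ a ∈ Φ '' R := hRim ▸ ⟨a, hag, rfl⟩
  have hrg := hRsub hr
  have e1 : star r * r = star a * a := congrArg Prod.fst hra
  have e2 : {z | z ∈ W ∧ ∃ m ∈ Lam, z = m * r} = {z | z ∈ W ∧ ∃ m ∈ Lam, z = m * a} :=
    congrArg Prod.snd hra
  -- key: a left ideal containing `Lam h` is determined by its part in `Z h`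
  have key : ∀ b c : E, b ∈ good → c ∈ good → star b * b = star c * c →
      {z | z ∈ W ∧ ∃ m ∈ Lam, z = m * b} ⊆ {z | z ∈ W ∧ ∃ m ∈ Lam, z = m * c} →
      ∃ m ∈ Lam, b = m * c := by
    intro b c hb hc hbc hsub
    have hhF : star b * b ∈ F := hb.2.2
    have hhL : star b * b ∈ Lam := Lam.mul_mem (H.star_mem b hb.1) hb.1
    have hh0 : star b * b ≠ 0 := by
      intro h0
      obtain ⟨u, hu⟩ := H.div b hb.1 hb.2.1
      have : star b = 0 := by
        have h2 : star b * b * ↑u⁻¹ = 0 := by rw [h0, zero_mul]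
        rw [← hu] at h2 ⊢
        simpa [mul_assoc] using h2
      exact hb.2.1 (by simpa using congrArg star this)
    obtain ⟨z, hz, m, hm, hbz⟩ := hZ (star b * b) hhL hh0 b hb.1
    have hzW : z ∈ W := mem_biUnion hhF hz
    have hzb : z = (1 - m * star b) * b := by
      rw [sub_mul, one_mul, mul_assoc]
      exact eq_sub_of_add_eq hbz.symm
    have h1 : z ∈ {z | z ∈ W ∧ ∃ m ∈ Lam, z = m * c} :=
      hsub ⟨hzW, _, Lam.sub_mem Lam.one_mem (Lam.mul_mem hm (H.star_mem b hb.1)), hzb⟩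
    obtain ⟨-, m', hm', hz'⟩ := h1
    refine ⟨m' + m * star c, Lam.add_mem hm' (Lam.mul_mem hm (H.star_mem c hc.1)), ?_⟩
    rw [add_mul, ← hz', mul_assoc, ← hbc]
    exact hbz
  obtain ⟨w, hw, haw⟩ := key a r hag hrg e1.symm e2.symm.subset
  obtain ⟨w', hw', hrw⟩ := key r a hrg hag e1 e2.subset
  obtain ⟨ur, hur⟩ := H.div r hrg.1 hrg.2.1
  obtain ⟨ua, hua⟩ := H.div a ha ha0
  have hww' : w * w' = 1 := by
    have h1 : w * w' * a = 1 * a := by rw [mul_assoc, ← hrw, ← haw, one_mul]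
    rw [← hua] at h1
    exact ua.mul_left_inj.1 h1
  have hw'w : w' * w = 1 := by
    have h1 : w' * w * r = 1 * r := by rw [mul_assoc, ← haw, ← hrw, one_mul]
    rw [← hur] at h1
    exact ur.mul_left_inj.1 h1
  have hsw : star w * w = 1 := by
    have h1 : star r * (star w * w) * r = star r * 1 * r := by
      have : star a * a = star r * (star w * w) * r := by
        conv_lhs => rw [haw]
        rw [star_mul]
        simp only [mul_assoc]
      rw [← this, ← e1, mul_one]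
    rw [← hur] at h1
    have h2 := ur.mul_left_inj.1 h1
    exact (ur.isUnit.star).mul_right_inj.1 h2
  refine ⟨r, hr, w, hw, hsw, ?_, haw⟩
  have : star w = w' := by
    calc star w = star w * (w * w') := by rw [hww', mul_one]
      _ = w' := by rw [← mul_assoc, hsw, one_mul]
  rw [this, hww']

/-- **Cocompactness of the unitary group of an order.** -/
theorem Lat.unitary_cocompact [LocallyCompactSpace E] [NoncompactSpace E] [MeasurableSpace E]
    [BorelSpace E] (μ : Measure E) [μ.IsAddHaarMeasure] [μ.Regular]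
    {Lam : Subring E} (H : Lat Lam) [Countable Lam]
    (hμ : ∀ x : E, star x * x = 1 → x * star x = 1 →
      ∀ s : Set E, IsCompact s → μ ((fun z => x * z) ⁻¹' s) = μ s) :
    ∃ C : Set E, IsCompact C ∧ ∀ x : E, star x * x = 1 → x * star x = 1 →
      ∃ w ∈ Lam, star w * w = 1 ∧ w * star w = 1 ∧ x * w ∈ C := by
  classical
  obtain ⟨K, hK, hcov⟩ := H.coc
  have : Countable Lam.toAddSubgroup := ‹Countable Lam›
  obtain ⟨C0, hC0, hmink⟩ := mink μ Lam.toAddSubgroup hK hcov
  have hC1 : IsCompact ((fun p : E × E => star p.1 * p.2) '' (C0 ×ˢ C0)) :=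
    (hC0.prod hC0).image (by fun_prop)
  obtain ⟨R, hRf, hR, hrep⟩ := H.finite_reps (H.disc _ hC1)
  have hinv : ∀ r : E, ∃ r' : E, r ∈ R → r * r' = 1 := by
    intro r
    by_cases hr : r ∈ R
    · obtain ⟨u, hu⟩ := H.div r (hR r hr).1 (hR r hr).2
      exact ⟨↑u⁻¹, fun _ => by rw [← hu]; simp⟩
    · exact ⟨0, fun h => absurd h hr⟩
  choose inv hinv using hinv
  refine ⟨⋃ r ∈ R, (fun z => z * inv r) '' C0,
    hRf.isCompact_biUnion fun r _ => hC0.image (continuous_mul_const _), fun x hx1 hx2 => ?_⟩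
  obtain ⟨a, ha, ha0, hxa⟩ := hmink x (star x) hx1 hx2 (hμ x hx1 hx2)
  have haF : star a * a ∈ ((fun p : E × E => star p.1 * p.2) '' (C0 ×ˢ C0)) ∩ (Lam : Set E) := by
    refine ⟨⟨(x * a, x * a), ⟨hxa, hxa⟩, ?_⟩, Lam.mul_mem (H.star_mem a ha) ha⟩
    simp only [star_mul]
    rw [mul_assoc, ← mul_assoc (star x), hx1, one_mul]
  obtain ⟨r, hr, w, hw, hw1, hw2, haw⟩ := hrep a ha ha0 haF
  refine ⟨w, hw, hw1, hw2, mem_biUnion hr ⟨x * a, hxa, ?_⟩⟩
  simp only
  rw [haw, ← mul_assoc, mul_assoc, hinv r hr, mul_one]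

omit [ContinuousStar E] [T2Space E] in
/-- Passing to a smaller family of correcting elements (`Q'` instead of `Q`), if a label `φ`
taking finitely many values on the relevant elements decides when `w * w'⁻¹` is in the smaller
family.  `P` = the elements to be corrected, `Q` = the correcting elements. -/
theorem cocompact_sub {X : Type*} {C : Set E} (hC : IsCompact C) {P Q Q' : E → Prop}
    (h : ∀ x, P x → ∃ w, Q w ∧ x * w ∈ C) (φ : E → X)
    (hfin : {t | ∃ x w, P x ∧ Q w ∧ x * w ∈ C ∧ φ w = t}.Finite)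
    (hQ' : ∀ w w', Q w → Q w' → φ w = φ w' → ∃ v, Q' (w * v) ∧ w' * v = 1 ∧ v * w' = 1 ∧
      v = star w') :
    ∃ C' : Set E, IsCompact C' ∧ ∀ x, P x → ∃ w, Q' w ∧ x * w ∈ C' := by
  classical
  set G : Set E := {w | ∃ x, P x ∧ Q w ∧ x * w ∈ C} with hG
  have hGf : (φ '' G).Finite := by
    refine hfin.subset ?_
    rintro _ ⟨w, ⟨x, hx, hw, hxw⟩, rfl⟩
    exact ⟨x, w, hx, hw, hxw, rfl⟩
  obtain ⟨R, hRs, hRb⟩ := Set.exists_subset_bijOn G φ
  have hRf : R.Finite := Set.Finite.of_finite_image (hRb.image_eq ▸ hGf) hRb.injOn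
  refine ⟨⋃ r ∈ R, (fun z => z * star r) '' C,
    hRf.isCompact_biUnion fun r _ => hC.image (continuous_mul_const _), fun x hx => ?_⟩
  obtain ⟨w, hw, hxw⟩ := h x hx
  have hwG : w ∈ G := ⟨x, hx, hw, hxw⟩
  obtain ⟨r, hr, hrw⟩ : φ w ∈ φ '' R := hRb.image_eq ▸ ⟨w, hwG, rfl⟩
  obtain ⟨-, -, hQr, -⟩ := hRs hr
  obtain ⟨v, hv, -, -, hvs⟩ := hQ' w r hw hQr hrw.symm
  refine ⟨w * v, hv, mem_biUnion hr ⟨x * w, hxw, ?_⟩⟩
  simp only
  rw [mul_assoc, hvs]

/-- A unitary element of a subring. -/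
def UL (Lam : Subring E) (w : E) : Prop := w ∈ Lam ∧ star w * w = 1 ∧ w * star w = 1

omit [TopologicalSpace E] [IsTopologicalRing E] [ContinuousStar E] [T2Space E] in
theorem UL.one (Lam : Subring E) : UL Lam (1 : E) := ⟨Lam.one_mem, by simp, by simp⟩

omit [TopologicalSpace E] [IsTopologicalRing E] [ContinuousStar E] [T2Space E] in
theorem UL.mul {Lam : Subring E} {v w : E} (hv : UL Lam v) (hw : UL Lam w) : UL Lam (v * w) := by
  refine ⟨Lam.mul_mem hv.1 hw.1, ?_, ?_⟩
  · rw [star_mul, mul_assoc, ← mul_assoc (star v), hv.2.1, one_mul, hw.2.1]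
  · rw [star_mul, mul_assoc, ← mul_assoc w, hw.2.2, one_mul, hv.2.2]

omit [TopologicalSpace E] [IsTopologicalRing E] [ContinuousStar E] [T2Space E] in
theorem UL.star {Lam : Subring E} (hst : ∀ a ∈ Lam, star a ∈ Lam) {w : E} (hw : UL Lam w) :
    UL Lam (star w) :=
  ⟨hst w hw.1, by rw [star_star]; exact hw.2.2, by rw [star_star]; exact hw.2.1⟩

/-- **Cocompactness of the kernel of a continuous multiplicative map on the unitary group**
(for instance the reduced norm: `SU`).  `ν` need only be defined and multiplicative on unitary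
elements; `hν`: the values of `ν` on unitary elements of the order in a compact set are finitely
many. -/
theorem Lat.special_cocompact [LocallyCompactSpace E] [NoncompactSpace E] [MeasurableSpace E]
    [BorelSpace E] (μ : Measure E) [μ.IsAddHaarMeasure] [μ.Regular]
    {Lam : Subring E} (H : Lat Lam) [Countable Lam]
    (hμ : ∀ x : E, star x * x = 1 → x * star x = 1 →
      ∀ s : Set E, IsCompact s → μ ((fun z => x * z) ⁻¹' s) = μ s)
    {T : Type*} [Monoid T] [TopologicalSpace T] (ν : E → T) (hνc : Continuous ν)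
    (hν1 : ν 1 = 1)
    (hνm : ∀ x y : E, star x * x = 1 → x * star x = 1 → star y * y = 1 → y * star y = 1 →
      ν (x * y) = ν x * ν y)
    (hν : ∀ K : Set T, IsCompact K → {t | t ∈ K ∧ ∃ w, UL Lam w ∧ ν w = t}.Finite) :
    ∃ C : Set E, IsCompact C ∧ ∀ x : E, star x * x = 1 → x * star x = 1 → ν x = 1 →
      ∃ w, UL Lam w ∧ ν w = 1 ∧ x * w ∈ C := by
  obtain ⟨C, hC, h⟩ := H.unitary_cocompact μ hμ
  obtain ⟨C', hC', h'⟩ := cocompact_sub (E := E) hC
    (P := fun x => star x * x = 1 ∧ x * star x = 1 ∧ ν x = 1) (Q := UL Lam)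
    (Q' := fun w => UL Lam w ∧ ν w = 1)
    (fun x hx => by
      obtain ⟨w, hw, h1, h2, h3⟩ := h x hx.1 hx.2.1
      exact ⟨w, ⟨hw, h1, h2⟩, h3⟩) ν
    ((hν _ (hC.image hνc)).subset (by
      rintro t ⟨x, w, ⟨hx1, hx2, hx3⟩, hw, hxw, rfl⟩
      refine ⟨⟨x * w, hxw, ?_⟩, w, hw, rfl⟩
      rw [hνm x w hx1 hx2 hw.2.1 hw.2.2, hx3, one_mul]))
    (fun w w' hw hw' hww => by
      refine ⟨star w', ⟨hw.mul (hw'.star H.star_mem), ?_⟩, hw'.2.2, hw'.2.1, rfl⟩
      have hs := hw'.star H.star_mem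
      rw [hνm w _ hw.2.1 hw.2.2 hs.2.1 hs.2.2, hww, ← hνm _ _ hw'.2.1 hw'.2.2 hs.2.1 hs.2.2,
        hw'.2.2, hν1])
  exact ⟨C', hC', fun x h1 h2 h3 => by
    obtain ⟨w, ⟨hw, hw'⟩, hx⟩ := h' x ⟨h1, h2, h3⟩
    exact ⟨w, hw, hw', hx⟩⟩

/-- **Cocompactness of a subgroup of finite index** given by a label: if `P` is corrected by
elements of `Q` (a class of unitary elements) and `c` is a homomorphism to a finite group on
`Q`, then the elements of `Q` in the kernel of `c` do it as well. -/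
theorem cocompact_ker {G : Type*} [Group G] [Finite G] {C : Set E} (hC : IsCompact C)
    {P Q : E → Prop} (h : ∀ x, P x → ∃ w, Q w ∧ x * w ∈ C)
    (hQu : ∀ w, Q w → star w * w = 1 ∧ w * star w = 1)
    (hQm : ∀ v w, Q v → Q w → Q (v * w)) (hQs : ∀ w, Q w → Q (star w))
    (c : E → G) (hcm : ∀ v w, Q v → Q w → c (v * w) = c v * c w) :
    ∃ C' : Set E, IsCompact C' ∧ ∀ x, P x → ∃ w, Q w ∧ c w = 1 ∧ x * w ∈ C' := by
  obtain ⟨C', hC', h'⟩ := cocompact_sub (E := E) hC (P := P) (Q := Q)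
    (Q' := fun w => Q w ∧ c w = 1) h c (Set.toFinite _)
    (fun w w' hw hw' hww => by
      refine ⟨star w', ⟨hQm _ _ hw (hQs _ hw'), ?_⟩, (hQu _ hw').2, (hQu _ hw').1, rfl⟩
      have hs := hQs _ hw'
      have h1 : Q (w' * star w') := hQm _ _ hw' hs
      have h2 : c (w' * star w') = 1 := by
        have h3 : c ((w' * star w') * (w' * star w')) = c (w' * star w') * c (w' * star w') :=
          hcm _ _ h1 h1
        rw [(hQu _ hw').2, mul_one] at h3
        rw [(hQu _ hw').2]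
        exact left_eq_mul.1 h3
      rw [hcm _ _ hw hs, hww, ← hcm _ _ hw' hs, h2])
  exact ⟨C', hC', fun x hx => by
    obtain ⟨w, ⟨hw, hw'⟩, hx⟩ := h' x hx
    exact ⟨w, hw, hw', hx⟩⟩

end main

end Vale.Agent.P011.H544
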